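import Vale.Agent.P157.Parisi.System
import Vale.Agent.P157.RSPattern
import Vale.Agent.P168.Limit.SelfAvg.Gauss

/-!
Gaussian fields on finite index sets: equality in law from equal covariances, comparison of
`E log Z`, and a few one-dimensional moments.
-/

noncomputable section

open MeasureTheory ProbabilityTheory
open scoped BigOperators

namespace Vale.Agent.P157.Parisi.Cavity

open Vale.Agent.P168.Limit (logZ gw gav)
open Vale.Agent.P168.Limit.SelfAvg (field)
open Vale.Agent.P168.Toolkit (integrable_gauss_exp)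

variable {X : Type*} [Fintype X]
variable {ι κ : Type*} [Fintype ι] [Fintype κ]

omit [Fintype X] in
lemma measurable_field' (φ : X → ι → ℝ) : Measurable (field φ) :=
  measurable_pi_lambda _ fun x => Vale.Agent.P168.Limit.SelfAvg.measurable_field φ x

lemma clm_field (L : (X → ℝ) →L[ℝ] ℝ) (φ : X → ι → ℝ) [DecidableEq X] (z : ι → ℝ) :
    L (field φ z) = dot z fun i => ∑ x, L (Pi.single x 1) * φ x i := by
  conv_lhs => rw [pi_eq_sum_univ' (field φ z), map_sum]
  simp only [map_smul, smul_eq_mul, field, dot, Finset.sum_mul, Finset.mul_sum]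
  rw [Finset.sum_comm]
  refine Finset.sum_congr rfl fun i _ => Finset.sum_congr rfl fun x _ => ?_
  ring

lemma sum_sq_comb (a : X → ℝ) (φ : X → ι → ℝ) :
    ∑ i, (∑ x, a x * φ x i) ^ 2 = ∑ x, ∑ y, a x * a y * ∑ i, φ x i * φ y i := by
  simp only [sq, Finset.mul_sum, Finset.sum_mul]
  rw [Finset.sum_comm]
  refine Finset.sum_congr rfl fun x _ => ?_
  rw [Finset.sum_comm]
  refine Finset.sum_congr rfl fun y _ => Finset.sum_congr rfl fun i _ => ?_
  ring

/-- Two linear images of standard Gaussian vectors with the same covariance have the same law. -/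
theorem field_law (φ : X → ι → ℝ) (ψ : X → κ → ℝ)
    (h : ∀ x y, ∑ i, φ x i * φ y i = ∑ k, ψ x k * ψ y k) :
    (gam ι).map (field φ) = (gam κ).map (field ψ) := by
  classical
  apply Measure.ext_of_charFunDual
  ext L
  rw [charFunDual_apply, charFunDual_apply, integral_map (measurable_field' φ).aemeasurable
    (by fun_prop), integral_map (measurable_field' ψ).aemeasurable (by fun_prop)]
  simp only [clm_field, integral_cexp_dot, sum_sq_comb, h]

lemma integral_field_congr (φ : X → ι → ℝ) (ψ : X → κ → ℝ)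
    (h : ∀ x y, ∑ i, φ x i * φ y i = ∑ k, ψ x k * ψ y k) {F : (X → ℝ) → ℝ} (hF : Measurable F) :
    ∫ z, F (field φ z) ∂gam ι = ∫ z, F (field ψ z) ∂gam κ := by
  rw [← integral_map (measurable_field' φ).aemeasurable hF.aestronglyMeasurable, field_law φ ψ h,
    integral_map (measurable_field' ψ).aemeasurable hF.aestronglyMeasurable]

lemma measurable_logZ_shift (A : X → ℝ) : Measurable fun w : X → ℝ => logZ fun x => A x + w x := by
  unfold logZ; fun_prop

/-- Fields with a common part and remainders of variance at most `v`. -/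
theorem field_compare [Nonempty X] {ι₀ κ₁ κ₂ : Type*} [Fintype ι₀] [Fintype κ₁] [Fintype κ₂]
    (A : X → ℝ) (φ₁ : X → ι → ℝ) (φ₂ : X → κ → ℝ) (φ₀ : X → ι₀ → ℝ) (ψ₁ : X → κ₁ → ℝ)
    (ψ₂ : X → κ₂ → ℝ)
    (h₁ : ∀ x y, ∑ i, φ₁ x i * φ₁ y i = ∑ i, φ₀ x i * φ₀ y i + ∑ i, ψ₁ x i * ψ₁ y i)
    (h₂ : ∀ x y, ∑ i, φ₂ x i * φ₂ y i = ∑ i, φ₀ x i * φ₀ y i + ∑ i, ψ₂ x i * ψ₂ y i)
    {v : ℝ} (v₁ : ∀ x, ∑ i, ψ₁ x i ^ 2 ≤ v) (v₂ : ∀ x, ∑ i, ψ₂ x i ^ 2 ≤ v) :
    |∫ z, (logZ fun x => A x + field φ₁ z x) ∂gam ι -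
      ∫ z, (logZ fun x => A x + field φ₂ z x) ∂gam κ| ≤ v / 2 := by
  set Φ₁ : X → ι₀ ⊕ (κ₁ ⊕ κ₂) → ℝ := fun x => Sum.elim (φ₀ x) (Sum.elim (ψ₁ x) 0) with hΦ₁
  set Φ₂ : X → ι₀ ⊕ (κ₁ ⊕ κ₂) → ℝ := fun x => Sum.elim (φ₀ x) (Sum.elim 0 (ψ₂ x)) with hΦ₂
  rw [integral_field_congr φ₁ Φ₁ (fun x y => by simp [hΦ₁, h₁, Fintype.sum_sum_type])
      (measurable_logZ_shift A),
    integral_field_congr φ₂ Φ₂ (fun x y => by simp [hΦ₂, h₂, Fintype.sum_sum_type])
      (measurable_logZ_shift A)]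
  have := Vale.Agent.P168.Limit.SelfAvg.field_change A A Φ₁ Φ₂ (fun i => i.isRight = true)
    (c := 0) (v := v) (fun x => by simp) (fun x i hi => by
      cases i <;> simp_all [Φ₁, Φ₂])
    (fun x => by simpa [hΦ₁, Fintype.sum_sum_type] using v₁ x)
    (fun x => by simpa [hΦ₂, Fintype.sum_sum_type] using v₂ x)
  simpa [abs_sub_comm] using this

lemma sum_unitVec_sq {N : ℕ} (hN : 0 < N) (σ : Cube N) : ∑ i, unitVec σ i ^ 2 = 1 := by
  have : (0 : ℝ) < N := Nat.cast_pos.2 hN
  have h : ∀ i, unitVec σ i ^ 2 = 1 / N := fun i => by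
    unfold unitVec sv
    split_ifs <;> rw [div_pow, Real.sq_sqrt this.le] <;> norm_num
  simp [h, this.ne']

lemma integral_dot_unit {u : ι → ℝ} (hu : ∑ i, u i ^ 2 = 1) {φ : ℝ → ℝ} (hφ : Measurable φ) :
    ∫ g, φ (dot g u) ∂gam ι = ∫ x, φ x ∂gaussianReal 0 1 := by
  rw [← integral_map (φ := fun g => dot g u) (by unfold dot; fun_prop : Measurable fun g => dot g u).aemeasurable
    hφ.aestronglyMeasurable, map_dot_unit hu]

lemma integrable_dot_unit {u : ι → ℝ} (hu : ∑ i, u i ^ 2 = 1) {φ : ℝ → ℝ}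
    (hφ : Integrable φ (gaussianReal 0 1)) : Integrable (fun g => φ (dot g u)) (gam ι) := by
  have h := map_dot_unit hu
  exact (h ▸ hφ : Integrable φ ((gam ι).map fun g => dot g u)).comp_measurable
    (by unfold dot; fun_prop)

lemma integrable_exp_abs (c : ℝ) :
    Integrable (fun x : ℝ => Real.exp (c * |x|)) (gaussianReal 0 1) := by
  refine ((integrable_gauss_exp c).add (integrable_gauss_exp (-c))).mono' (by fun_prop)
    (ae_of_all _ fun x => ?_)
  rw [Real.norm_eq_abs, Real.abs_exp, Pi.add_apply]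
  rcases abs_choice x with h | h <;> rw [h] <;> [skip; rw [mul_neg, ← neg_mul]] <;>
    linarith [Real.exp_pos (c * x), Real.exp_pos (-c * x)]

lemma integrable_pow_six : Integrable (fun x : ℝ => x ^ 6) (gaussianReal 0 1) := by
  refine ((integrable_exp_abs 1).const_mul 720).mono' (by fun_prop) (ae_of_all _ fun x => ?_)
  have := Real.pow_div_factorial_le_exp |x| (abs_nonneg x) 6
  norm_num [Nat.factorial] at this
  rw [Real.norm_eq_abs, abs_pow, one_mul]
  linarith

lemma sq_sub_clamp_le {T : ℝ} (hT : 0 ≤ T) {k : ℝ} (hk : 0 ≤ k) (x : ℝ) :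
    (x - clampT T x) ^ 2 ≤ 2 * Real.exp (-k * T) * Real.exp ((k + 1) * |x|) := by
  rcases le_or_gt |x| T with h | h
  · obtain ⟨h1, h2⟩ := abs_le.1 h
    rw [clampT, min_eq_right h2, max_eq_right h1, sub_self, zero_pow two_ne_zero]
    positivity
  · have h0 : |x - clampT T x| ≤ |x| := by
      unfold clampT
      rcases abs_cases x with ⟨e, -⟩ | ⟨e, -⟩ <;> rw [e] at h ⊢
      · rw [min_eq_left h.le, max_eq_right (by linarith), abs_le]; constructor <;> linarith
      · rw [min_eq_right (by linarith), max_eq_left (by linarith), abs_le]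
        constructor <;> linarith
    have h1 : x ^ 2 ≤ 2 * Real.exp |x| := by
      have := Real.pow_div_factorial_le_exp |x| (abs_nonneg x) 2
      norm_num [Nat.factorial] at this
      linarith [sq_abs x]
    have h2 : (1 : ℝ) ≤ Real.exp (k * (|x| - T)) := Real.one_le_exp (by nlinarith)
    calc (x - clampT T x) ^ 2 ≤ x ^ 2 := sq_le_sq.2 h0
      _ ≤ 2 * Real.exp |x| * Real.exp (k * (|x| - T)) :=
        h1.trans (le_mul_of_one_le_right (by positivity) h2)
      _ = _ := by rw [mul_assoc, ← Real.exp_add, mul_assoc, ← Real.exp_add]; ring_nf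

end Vale.Agent.P157.Parisi.Cavity
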