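import Vale.Agent.P157.Parisi.Cavity.Finite
import Vale.Agent.P157.Parisi.Statements

/-!
The change of the perturbation when a site is added.
-/

noncomputable section

open MeasureTheory ProbabilityTheory Filter
open scoped BigOperators NNReal Topology

namespace Vale.Agent.P157.Parisi.Cavity

open Vale.Agent.P168.Limit (logZ)
open Vale.Agent.P168.Toolkit (integrable_poisson_of_linear)

variable {N L n : ℕ} {f : ℝ → ℝ} {A s : ℝ} {x : Fin L → ℝ}

lemma integrable_logZ_ham (hf : Smooth f A) :
    Integrable (fun b : Base N L n => logZ (ham f s x b)) (baseLaw N L n) := by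
  refine integrable_base (K := N * Real.log 2 + n * A) (k := pcoefSum s x)
    (measurable_logZ_of (measurable_ham hf)) fun b => ?_
  have h1 := abs_le.1 (abs_logZ_ham_le (s := s) (x := x) hf b)
  have h0 : (0 : ℝ) ≤ N * Real.log 2 := by positivity
  unfold jBound
  rw [abs_le]
  constructor <;> linarith

lemma logZn_iter (hf : Smooth f A) :
    logZn N n f s x = ∫ g, (∫ J, (logZ fun σ => patH f g σ + pertH s x J σ) ∂gam (PertIdx N L))
      ∂Measure.pi fun _ : Fin n => gam (Fin N) :=
  integral_prod _ (integrable_logZ_ham hf)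

lemma integrable_logZn_inner (hf : Smooth f A) :
    Integrable (fun g => ∫ J, (logZ fun σ => patH f g σ + pertH s x J σ) ∂gam (PertIdx N L))
      (Measure.pi fun _ : Fin n => gam (Fin N)) :=
  (integrable_logZ_ham hf).integral_prod_left

lemma abs_integral_pi_sub {α : Type*} [MeasurableSpace α] {μ : Measure α} [IsProbabilityMeasure μ]
    {F G : α → ℝ} (hF : Integrable F μ) (hG : Integrable G μ) {c : ℝ}
    (h : ∀ a, |F a - G a| ≤ c) : |∫ a, F a ∂μ - ∫ a, G a ∂μ| ≤ c := by
  rw [← integral_sub hF hG]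
  exact (abs_integral_le_integral_abs).trans
    ((integral_mono (hF.sub hG).abs (integrable_const c) h).trans_eq (by simp))

lemma abs_logZn_le (hN : 0 < N) (hf : Smooth f A) (hx : ∀ i, x i ∈ Set.Icc (1 : ℝ) 2) :
    |logZn N n f s x - N * Real.log 2| ≤ n * A + 2 * s ^ 2 := by
  rw [logZn_iter hf]
  have h := abs_integral_pi_sub (F := fun g : Fin n → Fin N → ℝ =>
      ∫ J, (logZ fun σ => patH f g σ + pertH s x J σ) ∂gam (PertIdx N L))
    (G := fun _ => N * Real.log 2) (integrable_logZn_inner hf) (integrable_const _)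
    (c := n * A + 2 * s ^ 2) fun g => ?_
  · simpa using h
  · have h1 := abs_le.1 (pert_gap hN (patH f g) s hx)
    have h2 : |logZ (patH f g) - N * Real.log 2| ≤ n * A := by
      have := Vale.Agent.P168.Limit.SelfAvg.abs_logZ_sub_le' (fun _ : Cube N => (0 : ℝ)) (patH f g)
        (abs_patH_le hf g)
      simpa [logZ_zero] using this
    have h2' := abs_le.1 h2
    rw [abs_le]
    constructor <;> linarith

lemma integrable_logZn (hN : 0 < N) (hf : Smooth f A) (hx : ∀ i, x i ∈ Set.Icc (1 : ℝ) 2)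
    (μ : ℝ≥0) : Integrable (fun n => logZn N n f s x - N * Real.log 2) (poissonMeasure μ) :=
  integrable_poisson_of_linear μ (A := 2 * s ^ 2) (B := A) fun n =>
    (abs_logZn_le hN hf hx).trans_eq (by ring)

lemma abs_logPartS_le (hN : 0 < N) (hf : Smooth f A) (hx : ∀ i, x i ∈ Set.Icc (1 : ℝ) 2)
    (μ : ℝ) : |logPartS N f s x μ| ≤ A * μ.toNNReal + 2 * s ^ 2 := by
  rw [logPartS_eq hf]
  have hc := Vale.Agent.P168.Toolkit.integrable_count μ.toNNReal
  refine (abs_integral_le_integral_abs).trans ((integral_mono (integrable_logZn hN hf hx _).abs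
    ((hc.const_mul A).add (integrable_const (2 * s ^ 2)))
    fun n => (abs_logZn_le hN hf hx).trans_eq ?_).trans_eq ?_)
  · simp only [Pi.add_apply]; ring
  · simp only [Pi.add_apply]
    rw [integral_add (hc.const_mul A) (integrable_const _), integral_const_mul,
      Vale.Agent.P168.Toolkit.integral_count]
    simp

lemma measurable_logPartS (hf : Smooth f A) (μ : ℝ) :
    Measurable fun x : Fin L → ℝ => logPartS N f s x μ := by
  simp only [logPartS_eq hf]
  have h : ∀ n, Measurable fun x : Fin L → ℝ => logZn N n f s x := fun n => by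
    have hj : Measurable fun p : (Fin L → ℝ) × Base N L n => logZ (ham f s p.1 p.2) := by
      refine measurable_logZ_of fun σ => ?_
      refine ((measurable_patH hf σ).comp (measurable_fst.comp measurable_snd)).add ?_
      unfold pertH; fun_prop
    exact (hj.stronglyMeasurable.integral_prod_right' (ν := baseLaw N L n)).measurable
  exact ((measurable_from_prod_countable_left (f := fun p : (Fin L → ℝ) × ℕ =>
    logZn N p.2 f s p.1 - N * Real.log 2) fun n => (h n).sub_const _).stronglyMeasurable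
      |>.integral_prod_right' (ν := poissonMeasure μ.toNNReal)).measurable

instance : IsProbabilityMeasure (volume.restrict (Set.Icc (1 : ℝ) 2)) :=
  ⟨by rw [Measure.restrict_apply_univ, Real.volume_Icc]; norm_num⟩

instance : IsProbabilityMeasure (xLaw L) := by unfold xLaw; infer_instance

lemma ae_xLaw (L : ℕ) : ∀ᵐ x ∂xLaw L, ∀ i, x i ∈ Set.Icc (1 : ℝ) 2 :=
  ae_all_iff.2 fun i => (measurePreserving_eval
    (fun _ : Fin L => volume.restrict (Set.Icc (1 : ℝ) 2)) i).quasiMeasurePreserving.ae
      (ae_restrict_mem measurableSet_Icc)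

lemma measurePreserving_init (N : ℕ) :
    MeasurePreserving (fun (x : Fin (N + 1) → ℝ) (i : Fin N) => x i.castSucc)
      (xLaw (N + 1)) (xLaw N) := by
  have hm : Measurable fun (x : Fin (N + 1) → ℝ) (i : Fin N) => x i.castSucc := by fun_prop
  refine ⟨hm, (Measure.pi_eq fun t ht => ?_).symm⟩
  rw [Measure.map_apply hm (MeasurableSet.univ_pi ht)]
  have e : (fun (x : Fin (N + 1) → ℝ) (i : Fin N) => x i.castSucc) ⁻¹' Set.univ.pi t =
      Set.univ.pi (Fin.snoc t Set.univ) := by
    ext x
    simp [Set.mem_pi, Fin.forall_fin_succ']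
  rw [e, xLaw, Measure.pi_pi, Fin.prod_univ_castSucc]
  simp only [Fin.snoc_castSucc, Fin.snoc_last, measure_univ, mul_one]

lemma scale_sq (N : ℕ) : scale N ^ 2 = (N : ℝ) ^ (3 / 4 : ℝ) := by
  rw [scale, ← Real.rpow_natCast, ← Real.rpow_mul N.cast_nonneg]; norm_num

lemma scale_sq_step (N : ℕ) :
    scale N ^ 2 ≤ scale (N + 1) ^ 2 ∧ scale (N + 1) ^ 2 ≤ (N : ℝ) + 1 ∧
      (0 < N → scale (N + 1) ^ 2 - scale N ^ 2 ≤ (N : ℝ) ^ (-(1 / 4 : ℝ))) := by
  simp only [scale_sq, Nat.cast_add, Nat.cast_one]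
  refine ⟨Real.rpow_le_rpow N.cast_nonneg (by linarith) (by norm_num),
    Real.rpow_le_self_of_one_le (by simp) (by norm_num), fun h => ?_⟩
  have hN : (0 : ℝ) < N := Nat.cast_pos.2 h
  have h0 : (0 : ℝ) ≤ 1 / N := by positivity
  rw [show (N : ℝ) + 1 = N * (1 + 1 / N) by field_simp,
    Real.mul_rpow hN.le (by linarith), show -(1 / 4 : ℝ) = 3 / 4 - 1 by norm_num,
    Real.rpow_sub_one hN.ne']
  have h1 := Real.rpow_le_self_of_one_le (x := 1 + 1 / (N : ℝ)) (by linarith)
    (by norm_num : (3 / 4 : ℝ) ≤ 1)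
  have := mul_le_mul_of_nonneg_left h1 (Real.rpow_nonneg hN.le (3 / 4))
  rw [mul_add, mul_one, mul_one_div] at this
  linarith

lemma logPartS_change {M : ℕ} (hM : 0 < M) (hf : Smooth f A) {s s' : ℝ} (hs : s ^ 2 ≤ s' ^ 2)
    {x : Fin (L + 1) → ℝ} (hx : ∀ i, x i ∈ Set.Icc (1 : ℝ) 2) (μ : ℝ) :
    |logPartS M f s' x μ - logPartS M f s (fun i => x i.castSucc) μ| ≤
      2 * (s' ^ 2 - s ^ 2) + 2 * s' ^ 2 * (1 / 4) ^ (L + 1) := by
  rw [logPartS_eq hf, logPartS_eq hf]
  refine abs_integral_pi_sub (integrable_logZn hM hf hx _)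
    (integrable_logZn hM hf (fun i => hx _) _) fun n => ?_
  rw [sub_sub_sub_cancel_right, logZn_iter hf, logZn_iter hf]
  exact abs_integral_pi_sub (integrable_logZn_inner hf) (integrable_logZn_inner hf)
    fun g => strength_compare hM (patH f g) hs hx

end Cavity

open Cavity in
/-- Module G2. -/
theorem pertChange : PertChangeStmt := by
  intro α A C f _ hf μ _ _
  have hbd : ∀ N, |(∫ x, logPartS (N + 1) f (scale (N + 1)) x (μ N) ∂xLaw (N + 1)) -
      ∫ x, logPartS (N + 1) f (scale N) x (μ N) ∂xLaw N| ≤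
      2 * (scale (N + 1) ^ 2 - scale N ^ 2) +
        2 * scale (N + 1) ^ 2 * (1 / 4) ^ (N + 1) := by
    intro N
    have hmp := measurePreserving_init N
    rw [← hmp.map_eq, integral_map hmp.measurable.aemeasurable
      (measurable_logPartS hf _).aestronglyMeasurable]
    have i1 : Integrable (fun x => logPartS (N + 1) f (scale (N + 1)) x (μ N)) (xLaw (N + 1)) :=
      Integrable.of_bound (measurable_logPartS hf _).aestronglyMeasurable
        (A * (μ N).toNNReal + 2 * scale (N + 1) ^ 2)
        ((ae_xLaw _).mono fun x hx => abs_logPartS_le N.succ_pos hf hx _)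
    have i2 : Integrable (fun x : Fin (N + 1) → ℝ =>
        logPartS (N + 1) f (scale N) (fun i : Fin N => x i.castSucc) (μ N)) (xLaw (N + 1)) :=
      Integrable.of_bound ((measurable_logPartS hf _).comp hmp.measurable).aestronglyMeasurable
        (A * (μ N).toNNReal + 2 * scale N ^ 2)
        ((ae_xLaw _).mono fun x hx => abs_logPartS_le N.succ_pos hf (fun i => hx _) _)
    rw [← integral_sub i1 i2]
    refine (abs_integral_le_integral_abs).trans ((integral_mono_ae (i1.sub i2).abs
      (integrable_const _) ((ae_xLaw _).mono fun x hx =>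
        logPartS_change N.succ_pos hf (scale_sq_step N).1 hx _)).trans_eq (by simp))
  refine squeeze_zero_norm' (a := fun N : ℕ => 2 * (N : ℝ) ^ (-(1 / 4 : ℝ)) +
    2 * (((N + 1 : ℕ) : ℝ) * (1 / 4) ^ (N + 1))) ?_ ?_
  · filter_upwards [eventually_gt_atTop 0] with N hN
    refine (hbd N).trans (add_le_add (by linarith [(scale_sq_step N).2.2 hN]) ?_)
    rw [mul_assoc, Nat.cast_add, Nat.cast_one]
    gcongr
    exact (scale_sq_step N).2.1
  · have h1 := (tendsto_rpow_neg_atTop (by norm_num : (0 : ℝ) < 1 / 4)).comp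
      tendsto_natCast_atTop_atTop
    have h2 := (tendsto_self_mul_const_pow_of_lt_one (by norm_num : (0 : ℝ) ≤ 1 / 4)
      (by norm_num)).comp (tendsto_add_atTop_nat 1)
    simpa using (h1.const_mul 2).add (h2.const_mul 2)

end Vale.Agent.P157.Parisi
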