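import Vale.Agent.P157.Parisi.Cavity.Moments

/-!
Module G1: adding one site.
-/

noncomputable section

open MeasureTheory ProbabilityTheory Filter
open scoped BigOperators NNReal Topology

namespace Vale.Agent.P157.Parisi.Cavity

open Vale.Agent.P168.Limit (logZ)
open Vale.Agent.P168.Toolkit (integral_poisson_eq integrable_poisson_iff pw pw_nonneg
  integrable_poisson_of_linear)

variable {N L n : ℕ} {f : ℝ → ℝ} {A s T : ℝ} {x : Fin L → ℝ}

/-- Exponential moments of a Poisson count. -/
lemma poisson_exp (r : ℝ≥0) (c : ℝ) :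
    Integrable (fun n : ℕ => Real.exp (c * n)) (poissonMeasure r) ∧
      ∫ n, Real.exp (c * n) ∂poissonMeasure r = Real.exp (r * (Real.exp c - 1)) := by
  have e : ∀ n : ℕ, pw r n * Real.exp (c * n) =
      Real.exp (-r) * (((r : ℝ) * Real.exp c) ^ n / (n.factorial : ℝ)) := fun n => by
    rw [pw, mul_comm c, Real.exp_nat_mul, mul_pow]; ring
  have h : HasSum (fun n : ℕ => pw r n * Real.exp (c * n)) (Real.exp (r * (Real.exp c - 1))) := by
    have h0 := (NormedSpace.expSeries_div_hasSum_exp ((r : ℝ) * Real.exp c)).mul_left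
      (Real.exp (-r))
    rw [← Real.exp_eq_exp_ℝ, ← Real.exp_add] at h0
    rw [show (r : ℝ) * (Real.exp c - 1) = -(r : ℝ) + r * Real.exp c by ring]
    simpa only [e] using h0
  refine ⟨(integrable_poisson_iff r _).2 ?_, by rw [integral_poisson_eq, h.tsum_eq]⟩
  simpa only [Real.abs_exp] using h.summable

lemma integrable_siteZ (hf : Smooth f A) :
    Integrable (fun q : (Fin n → Fin (N + 1) → ℝ) × (PertIdx N L → ℝ) =>
        logZ fun σ : Cube (N + 1) => patH f q.1 σ + pertH s x q.2 (dropLast σ))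
      ((Measure.pi fun _ : Fin n => gam (Fin (N + 1))).prod (gam (PertIdx N L))) := by
  refine Integrable.mono' (g := fun q => ((N + 1 : ℕ) * Real.log 2 + n * A) +
    jBound (pcoefSum s x) q.2) ((integrable_const _).add ((integrable_jBound _).comp_snd _)) ?_
    (ae_of_all _ fun q => ?_)
  · refine (measurable_logZ_of fun σ => ?_).aestronglyMeasurable
    refine ((measurable_patH hf σ).comp measurable_fst).add ?_
    unfold pertH; fun_prop
  · have h := Vale.Agent.P168.Limit.SelfAvg.abs_logZ_sub_le' (fun _ : Cube (N + 1) => (0 : ℝ))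
      (fun σ => patH f q.1 σ + pertH s x q.2 (dropLast σ))
      (c := n * A + jBound (pcoefSum s x) q.2) fun σ =>
        (abs_add_le _ _).trans (add_le_add (abs_patH_le hf _ _) (by
          rw [pertH_eq]; exact Vale.Agent.P168.Limit.SelfAvg.abs_field_le _ _ _))
    simp only [zero_add, logZ_zero] at h
    have h0 : (0 : ℝ) ≤ (N + 1 : ℕ) * Real.log 2 := by positivity
    have h' := abs_le.1 h
    rw [Real.norm_eq_abs, abs_le]
    constructor <;> linarith

/-- The site step at a given number of patterns. -/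
theorem site_bound (hN : 0 < N) (hf : Smooth f A) (hT : 0 ≤ T) {η : ℝ} (hη : 0 < η)
    (hx : ∀ i, x i ∈ Set.Icc (1 : ℝ) 2) :
    (∫ b : Base N L n, cavMean f T s x b ∂baseLaw N L n) -
        (Real.exp (2 * n * bCav A T N) / 2 * (η * Real.exp (2 * n * A ^ 2 / N) +
          Real.exp (2 * A) * A ^ 2 * Real.exp (2 * n / N) *
            ((m₄ + 24300 * (1 + 2 * m₆)) / N + tail T) / η) + 2 * s ^ 2 / (N + 1)) ≤
      (logZn (N + 1) n f s x - (N + 1 : ℕ) * Real.log 2) -
        (logZn N n f s x - N * Real.log 2) := by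
  set P := (baseLaw N L n).prod (gam (Fin n))
  have hsite := integrable_siteZ (N := N) (n := n) (s := s) (x := x) hf
  have hmp := measurePreserving_grow N L n
  have hS : Integrable (fun p : Base N L n × (Fin n → ℝ) => logZ (siteH f s x p.1 p.2)) P :=
    hmp.integrable_comp_of_integrable hsite
  have hH : Integrable (fun p : Base N L n × (Fin n → ℝ) => logZ (ham f s x p.1)) P :=
    (integrable_logZ_ham hf).comp_fst _
  have hC : Integrable (fun p : Base N L n × (Fin n → ℝ) => cavInt f T s x p.1 p.2) P :=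
    (((integrable_const ((n : ℝ) * bCav A T N)).add
      ((integrable_coordAbs).const_mul A)).comp_snd _).mono'
      (measurable_cavInt hf).aestronglyMeasurable
      (ae_of_all _ fun p => abs_cavInt_le hf hT p.1 p.2)
  obtain ⟨hE, hEb⟩ := errF_total (N := N) (n := n) (s := s) (x := x) hN hf hT hη
  have hmain : (∫ p, cavInt f T s x p.1 p.2 ∂P) - Real.exp (2 * n * bCav A T N) / 2 *
      (∫ p, errF f A T η s x p.1 p.2 ∂P) ≤
      (∫ p, logZ (siteH f s x p.1 p.2) ∂P) - (∫ p, logZ (ham f s x p.1) ∂P) - Real.log 2 := by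
    have hd : Integrable (fun p : Base N L n × (Fin n → ℝ) =>
        logZ (siteH f s x p.1 p.2) - logZ (ham f s x p.1)) P := hS.sub hH
    have h := integral_mono (hC.sub (hE.const_mul _)) (hd.sub (integrable_const (Real.log 2)))
      fun p : Base N L n × (Fin n → ℝ) => site_pointwise hN hf hT hη p.1 p.2
    simp only [Pi.sub_apply] at h
    rw [integral_sub hC (hE.const_mul _), integral_const_mul, integral_sub hd (integrable_const _),
      integral_sub hS hH] at h
    simpa using h
  have hCm : ∫ p, cavInt f T s x p.1 p.2 ∂P = ∫ b, cavMean f T s x b ∂baseLaw N L n :=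
    integral_prod _ hC
  have hHm : ∫ p, logZ (ham f s x p.1) ∂P = logZn N n f s x :=
    (integral_fun_fst fun b => logZ (ham f s x b)).trans (by simp [logZn])
  have hSm : ∫ p, logZ (siteH f s x p.1 p.2) ∂P ≤ logZn (N + 1) n f s x + 2 * s ^ 2 / (N + 1) := by
    have he : ∫ p, logZ (siteH f s x p.1 p.2) ∂P =
        ∫ q : (Fin n → Fin (N + 1) → ℝ) × (PertIdx N L → ℝ),
          (logZ fun σ : Cube (N + 1) => patH f q.1 σ + pertH s x q.2 (dropLast σ))
          ∂(Measure.pi fun _ : Fin n => gam (Fin (N + 1))).prod (gam (PertIdx N L)) := by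
      rw [← hmp.map_eq, integral_map hmp.measurable.aemeasurable
        (by rw [hmp.map_eq]; exact hsite.aestronglyMeasurable)]
      rfl
    rw [he, integral_prod _ hsite, logZn_iter hf]
    have h := abs_integral_pi_sub (integrable_logZn_inner (N := N + 1) (n := n) (s := s) (x := x) hf)
      hsite.integral_prod_left (c := 2 * s ^ 2 / (N + 1)) fun g => site_compare hN (patH f g) s hx
    linarith [(abs_le.1 h).1]
  have hp : 0 ≤ Real.exp (2 * n * bCav A T N) / 2 := by positivity
  have := mul_le_mul_of_nonneg_left hEb hp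
  push_cast
  linarith

/-- The site step averaged over the number of patterns. -/
theorem site_step (hN : 0 < N) (hf : Smooth f A) (hT : 0 ≤ T) {η : ℝ} (hη : 0 < η)
    (hx : ∀ i, x i ∈ Set.Icc (1 : ℝ) 2) {c : ℝ} (hc : A + T * A + 2 * A ^ 2 + 2 ≤ c) (μ : ℝ) :
    cavVal N f T s x μ -
        (Real.exp (μ.toNNReal * (Real.exp (c / N) - 1)) * ((η +
          Real.exp (2 * A) * A ^ 2 * ((m₄ + 24300 * (1 + 2 * m₆)) / N + tail T) / η) / 2) +
          2 * s ^ 2 / (N + 1)) ≤
      logPartS (N + 1) f s x μ - logPartS N f s x μ := by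
  set D : ℝ := (η + Real.exp (2 * A) * A ^ 2 * ((m₄ + 24300 * (1 + 2 * m₆)) / N + tail T) / η) / 2
    with hD
  have hA := Smooth.A_nonneg hf
  have hK : 0 ≤ Real.exp (2 * A) * A ^ 2 * ((m₄ + 24300 * (1 + 2 * m₆)) / N + tail T) := by
    have := m₄_nonneg; have := m₆_nonneg
    have : 0 ≤ tail T := integral_nonneg fun _ => sq_nonneg _
    positivity
  have hn : ∀ n : ℕ, (∫ b : Base N L n, cavMean f T s x b ∂baseLaw N L n) -
      (Real.exp (c / N * n) * D + 2 * s ^ 2 / (N + 1)) ≤
      (logZn (N + 1) n f s x - (N + 1 : ℕ) * Real.log 2) -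
        (logZn N n f s x - N * Real.log 2) := by
    intro n
    refine le_trans ?_ (site_bound hN hf hT hη hx)
    refine sub_le_sub_left (add_le_add ?_ le_rfl) _
    have h1 : Real.exp (2 * n * bCav A T N) * Real.exp (2 * n * A ^ 2 / N) ≤
        Real.exp (c / N * n) := by
      rw [← Real.exp_add, Real.exp_le_exp, bCav,
        show 2 * (n : ℝ) * ((A + T * A) / (2 * N)) + 2 * n * A ^ 2 / N =
          (A + T * A + 2 * A ^ 2) / N * n by field_simp]
      gcongr
      linarith
    have h2 : Real.exp (2 * n * bCav A T N) * Real.exp (2 * n / N) ≤ Real.exp (c / N * n) := by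
      rw [← Real.exp_add, Real.exp_le_exp, bCav,
        show 2 * (n : ℝ) * ((A + T * A) / (2 * N)) + 2 * n / N = (A + T * A + 2) / N * n by
          field_simp]
      gcongr
      nlinarith
    have h3 := mul_le_mul_of_nonneg_right h1 hη.le
    have h4 := mul_le_mul_of_nonneg_right h2 (div_nonneg hK hη.le)
    rw [hD]
    refine le_trans (le_of_eq ?_) ((div_le_div_of_nonneg_right (add_le_add h3 h4) two_pos.le).trans
      (le_of_eq ?_)) <;> ring
  rw [cavVal_eq hf hT, logPartS_eq hf, logPartS_eq hf]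
  obtain ⟨he, hev⟩ := poisson_exp μ.toNNReal (c / N)
  have hi1 : Integrable (fun n => ∫ b : Base N L n, cavMean f T s x b ∂baseLaw N L n)
      (poissonMeasure μ.toNNReal) := by
    refine integrable_poisson_of_linear _ (A := 0) (B := bCav A T N + A) fun n => ?_
    refine (abs_integral_le_integral_abs).trans ?_
    have hm : Integrable (fun b : Base N L n => cavMean f T s x b) (baseLaw N L n) :=
      Integrable.of_bound
        ((measurable_cavInt hf).stronglyMeasurable.integral_prod_right').aestronglyMeasurable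
        ((n : ℝ) * (bCav A T N + A)) (ae_of_all _ fun b => abs_cavMean_le hf hT b)
    refine (integral_mono hm.abs (integrable_const _) fun b => abs_cavMean_le hf hT b).trans_eq ?_
    simp; ring
  have hi2 : Integrable (fun n : ℕ => Real.exp (c / N * n) * D + 2 * s ^ 2 / (N + 1))
      (poissonMeasure μ.toNNReal) := (he.mul_const D).add (integrable_const _)
  have j1 := integrable_logZn (s := s) N.succ_pos hf hx μ.toNNReal
  have j2 := integrable_logZn (s := s) hN hf hx μ.toNNReal
  have h := integral_mono (hi1.sub hi2) (j1.sub j2) hn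
  simp only [Pi.sub_apply] at h
  rw [integral_sub hi1 hi2, integral_sub j1 j2, integral_add (he.mul_const D) (integrable_const _),
    integral_mul_const, hev] at h
  simpa using h

end Cavity

open Cavity in
/-- Module G1. -/
theorem cavity : CavityStmt := by
  intro α A C f hα hf ε hε
  have hA := Smooth.A_nonneg hf
  set β : ℝ := α + |C| with hβ
  have hβ0 : 0 ≤ β := add_nonneg hα.le (abs_nonneg C)
  set a₁ : ℝ := 2 * β * A with ha₁
  set a₀ : ℝ := 2 * β * (A + 2 * A ^ 2 + 2) with ha₀
  set k : ℝ := 2 * a₁ + 1 with hk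
  have hk0 : 0 ≤ k := by positivity
  set Kc : ℝ := Real.exp (2 * A) * A ^ 2 with hKc
  set I : ℝ := ∫ y, Real.exp ((k + 1) * |y|) ∂gaussianReal 0 1 with hI
  have hlim : Tendsto (fun T : ℝ => Kc * (2 * I * Real.exp (2 * a₀)) * Real.exp (-T)) atTop (𝓝 0) := by
    simpa using Real.tendsto_exp_neg_atTop_nhds_zero.const_mul _
  obtain ⟨T₁, hT₁⟩ := eventually_atTop.1 (hlim.eventually (eventually_le_nhds
    (show (0 : ℝ) < ε ^ 2 / 4 by positivity)))
  refine ⟨max T₁ 0, fun T hT => ?_⟩
  have hT0 : 0 ≤ T := le_of_max_le_right hT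
  set c : ℝ := A + T * A + 2 * A ^ 2 + 2 with hc
  set K : ℝ := Real.exp (a₁ * T + a₀) with hK
  have hK0 : 0 < K := Real.exp_pos _
  have hTK : Kc * tail T * K ^ 2 ≤ ε ^ 2 / 4 := by
    refine le_trans ?_ (hT₁ T (le_of_max_le_left hT))
    have h : tail T * K ^ 2 ≤ 2 * Real.exp (-k * T) * I * K ^ 2 :=
      mul_le_mul_of_nonneg_right (tail_le hT0 hk0) (sq_nonneg K)
    have e : Real.exp (-k * T) * K ^ 2 = Real.exp (2 * a₀) * Real.exp (-T) := by
      rw [hK, ← Real.exp_nat_mul, ← Real.exp_add, ← Real.exp_add, hk]; push_cast; ring_nf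
    calc Kc * tail T * K ^ 2 = Kc * (tail T * K ^ 2) := mul_assoc _ _ _
      _ ≤ Kc * (2 * Real.exp (-k * T) * I * K ^ 2) :=
        mul_le_mul_of_nonneg_left h (by positivity)
      _ = Kc * (2 * I * (Real.exp (-k * T) * K ^ 2)) := by ring
      _ = _ := by rw [e]; ring
  set M : ℝ := Kc * (m₄ + 24300 * (1 + 2 * m₆)) * K ^ 2 with hM
  have hev1 : ∀ᶠ N : ℕ in atTop, M / N ≤ ε ^ 2 / 4 :=
    (tendsto_const_div_atTop_nhds_zero_nat M).eventually (eventually_le_nhds (by positivity))
  have hev2 : ∀ᶠ N : ℕ in atTop, 2 * (N : ℝ) ^ (-(1 / 4 : ℝ)) ≤ ε / 4 := by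
    refine Tendsto.eventually ?_ (eventually_le_nhds (show (0 : ℝ) < ε / 4 by positivity))
    simpa using ((tendsto_rpow_neg_atTop (by norm_num : (0 : ℝ) < 1 / 4)).comp
      tendsto_natCast_atTop_atTop).const_mul 2
  filter_upwards [hev1, hev2, eventually_gt_atTop 0,
    tendsto_natCast_atTop_atTop.eventually (eventually_ge_atTop c)] with N h1 h2 hN hNc μ hμ0 hμ x hx
  have hNr : (0 : ℝ) < N := Nat.cast_pos.2 hN
  have hN1 : (1 : ℝ) ≤ N := Nat.one_le_cast.2 hN
  refine le_trans ?_ (site_step (η := ε / K) hN hf hT0 (by positivity) hx le_rfl μ)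
  have hc0 : 0 ≤ c := by rw [hc]; positivity
  have hexp : Real.exp (μ.toNNReal * (Real.exp (c / N) - 1)) ≤ K := by
    rw [hK, Real.exp_le_exp, Real.coe_toNNReal _ hμ0]
    have h3 : Real.exp (c / N) - 1 ≤ 2 * (c / N) := by
      have hle : |c / N| ≤ 1 := by
        rw [abs_of_nonneg (by positivity)]; exact (div_le_one hNr).2 hNc
      have := Real.abs_exp_sub_one_le hle
      rw [abs_of_nonneg (show 0 ≤ c / (N : ℝ) by positivity)] at this
      exact (le_abs_self _).trans this
    have h4 : μ ≤ β * N := by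
      have := (abs_le.1 hμ).2
      rw [hβ, add_mul]
      nlinarith [le_abs_self C, abs_nonneg C]
    calc μ * (Real.exp (c / N) - 1) ≤ μ * (2 * (c / N)) := mul_le_mul_of_nonneg_left h3 hμ0
      _ ≤ β * N * (2 * (c / N)) := mul_le_mul_of_nonneg_right h4 (by positivity)
      _ = a₁ * T + a₀ := by rw [ha₁, ha₀, hc]; field_simp; ring
  have hB : 0 ≤ tail T := integral_nonneg fun _ => sq_nonneg _
  have hm := m₄_nonneg
  have hm' := m₆_nonneg
  have hinner : 0 ≤ (ε / K + Real.exp (2 * A) * A ^ 2 *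
      ((m₄ + 24300 * (1 + 2 * m₆)) / N + tail T) / (ε / K)) / 2 := by positivity
  have h5 := mul_le_mul_of_nonneg_right hexp hinner
  have h6 : K * ((ε / K + Real.exp (2 * A) * A ^ 2 *
      ((m₄ + 24300 * (1 + 2 * m₆)) / N + tail T) / (ε / K)) / 2) ≤ 3 * ε / 4 := by
    have e : K * ((ε / K + Real.exp (2 * A) * A ^ 2 *
        ((m₄ + 24300 * (1 + 2 * m₆)) / N + tail T) / (ε / K)) / 2) =
        ε / 2 + (M / N + Kc * tail T * K ^ 2) / (2 * ε) := by
      rw [hM, hKc]; field_simp
    rw [e]
    have : (M / N + Kc * tail T * K ^ 2) / (2 * ε) ≤ ε / 4 := by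
      rw [div_le_iff₀ (by positivity)]; nlinarith
    linarith
  have h7 : 2 * scale N ^ 2 / (N + 1) ≤ ε / 4 := by
    refine le_trans ?_ h2
    rw [scale_sq, mul_div_assoc, show -(1 / 4 : ℝ) = 3 / 4 - 1 by norm_num,
      Real.rpow_sub_one hNr.ne']
    gcongr
    linarith only
  linarith

end Vale.Agent.P157.Parisi
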