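import Vale.Agent.P157.Parisi.Cavity.Gauss

/-!
The covariance of the perturbation and the cost of changing its size or strength.
-/

noncomputable section

open MeasureTheory ProbabilityTheory
open scoped BigOperators

namespace Vale.Agent.P157.Parisi.Cavity

open Vale.Agent.P168.Limit (logZ)
open Vale.Agent.P168.Limit.SelfAvg (field)

variable {N L : ℕ}

/-- The coefficients of the perturbation. -/
def pcoef (s : ℝ) (x : Fin L → ℝ) (σ : Cube N) (c : PertIdx N L) : ℝ :=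
  s * x c.1 * (1 / 2) ^ (c.1.val + 1) * ∏ i, unitVec σ (c.2 i)

/-- The size of the component of the perturbation of degree `p + 1`. -/
def amp (s : ℝ) (x : Fin L → ℝ) (p : Fin L) : ℝ := s * x p * (1 / 2) ^ (p.val + 1)

lemma pertH_eq (s : ℝ) (x : Fin L → ℝ) (J : PertIdx N L → ℝ) (σ : Cube N) :
    pertH s x J σ = field (pcoef s x) J σ :=
  Finset.sum_congr rfl fun _ _ => mul_comm _ _

lemma sum_unitVec_mul (σ τ : Cube N) : ∑ i, unitVec σ i * unitVec τ i = overlap σ τ := by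
  rw [overlap, Finset.sum_div]
  refine Finset.sum_congr rfl fun i _ => ?_
  rw [unitVec, unitVec, div_mul_div_comm, Real.mul_self_sqrt N.cast_nonneg]

lemma overlap_self (hN : 0 < N) (σ : Cube N) : overlap σ σ = 1 := by
  rw [← sum_unitVec_mul]; simpa [sq] using sum_unitVec_sq hN σ

/-- A filter on the tuples that factors over the sites. -/
lemma pcov_filter (s : ℝ) (x : Fin L → ℝ) (σ τ : Cube N) (w : Fin N → ℝ) :
    ∑ c : PertIdx N L, (pcoef s x σ c * pcoef s x τ c) * ∏ i, w (c.2 i) =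
      ∑ p, amp s x p ^ 2 * (∑ i, unitVec σ i * unitVec τ i * w i) ^ (p.val + 1) := by
  rw [Fintype.sum_sigma]
  refine Finset.sum_congr rfl fun p _ => ?_
  rw [Fintype.sum_pow, Finset.mul_sum]
  refine Finset.sum_congr rfl fun f _ => ?_
  simp only [pcoef, amp, Finset.prod_mul_distrib]
  ring

lemma pcov (s : ℝ) (x : Fin L → ℝ) (σ τ : Cube N) :
    ∑ c, pcoef s x σ c * pcoef s x τ c = ∑ p, amp s x p ^ 2 * overlap σ τ ^ (p.val + 1) := by
  simpa [sum_unitVec_mul] using pcov_filter s x σ τ fun _ => 1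

lemma pvar (hN : 0 < N) (s : ℝ) (x : Fin L → ℝ) (σ : Cube N) :
    ∑ c, pcoef s x σ c ^ 2 = ∑ p, amp s x p ^ 2 := by
  simp_rw [sq (pcoef s x σ _)]
  rw [pcov]
  simp [overlap_self hN]

lemma sum_half_pow_le : ∀ L : ℕ, ∑ p : Fin L, (1 / 2 : ℝ) ^ (p.val + 1) ≤ 1
  | 0 => by simp
  | L + 1 => by
    rw [Fin.sum_univ_succ]
    have h := sum_half_pow_le L
    have e : ∑ p : Fin L, (1 / 2 : ℝ) ^ (p.succ.val + 1) =
        1 / 2 * ∑ p : Fin L, (1 / 2 : ℝ) ^ (p.val + 1) := by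
      rw [Finset.mul_sum]
      exact Finset.sum_congr rfl fun p _ => by rw [Fin.val_succ, pow_succ' _ (p.val + 1)]
    rw [e, Fin.val_zero, zero_add, pow_one]
    linarith

lemma amp_sq_le {s : ℝ} {x : Fin L → ℝ} (hx : ∀ i, x i ∈ Set.Icc (1 : ℝ) 2) (p : Fin L) :
    amp s x p ^ 2 ≤ 4 * s ^ 2 * ((1 / 4) ^ (p.val + 1)) := by
  have e : ((1 / 4 : ℝ)) ^ (p.val + 1) = ((1 / 2) ^ (p.val + 1)) ^ 2 := by
    rw [← pow_mul, mul_comm, pow_mul]; norm_num
  rw [e, amp, mul_pow, mul_pow]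
  have : x p ^ 2 ≤ 4 := by nlinarith [(hx p).1, (hx p).2]
  have h0 : 0 ≤ s ^ 2 * ((1 / 2 : ℝ) ^ (p.val + 1)) ^ 2 := by positivity
  nlinarith

lemma sum_amp_sq_le {s : ℝ} {x : Fin L → ℝ} (hx : ∀ i, x i ∈ Set.Icc (1 : ℝ) 2) :
    ∑ p, amp s x p ^ 2 ≤ 4 * s ^ 2 := by
  calc ∑ p, amp s x p ^ 2 ≤ ∑ p : Fin L, 4 * s ^ 2 * (1 / 2) ^ (p.val + 1) :=
        Finset.sum_le_sum fun p _ => (amp_sq_le hx p).trans (mul_le_mul_of_nonneg_left
          (pow_le_pow_left₀ (by norm_num) (by norm_num) _) (by positivity))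
    _ ≤ _ := by
        rw [← Finset.mul_sum]
        exact mul_le_of_le_one_right (by positivity) (sum_half_pow_le L)

/-- Forgetting the last site. -/
def dropLast (σ : Cube (N + 1)) : Cube N := fun i => σ i.castSucc

lemma unitVec_castSucc (σ : Cube (N + 1)) (i : Fin N) :
    unitVec σ i.castSucc = Real.sqrt (N / (N + 1 : ℝ)) * unitVec (dropLast σ) i := by
  have : (0 : ℝ) < N := Nat.cast_pos.2 (Fin.pos i)
  simp only [unitVec, sv, dropLast, Real.sqrt_div this.le, Nat.cast_add, Nat.cast_one]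
  field_simp
  rfl

/-- The perturbation of `N + 1` sites against the one of the first `N` sites. -/
theorem site_compare (hN : 0 < N) (A : Cube (N + 1) → ℝ) (s : ℝ) {x : Fin L → ℝ}
    (hx : ∀ i, x i ∈ Set.Icc (1 : ℝ) 2) :
    |∫ J, (logZ fun σ => A σ + pertH s x J σ) ∂gam (PertIdx (N + 1) L) -
      ∫ J, (logZ fun σ => A σ + pertH s x J (dropLast σ)) ∂gam (PertIdx N L)| ≤
      2 * s ^ 2 / (N + 1) := by
  classical
  set θ : ℝ := N / (N + 1) with hθ
  have hθ0 : 0 ≤ θ := by positivity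
  have hθ1 : θ ≤ 1 := (div_le_one (by positivity)).2 (by linarith)
  have hρ : ∀ k : ℕ, 0 ≤ 1 - θ ^ k := fun k => sub_nonneg.2 (pow_le_one₀ hθ0 hθ1)
  set φ₀ : Cube (N + 1) → PertIdx N L → ℝ :=
    fun σ c => Real.sqrt (θ ^ (c.1.val + 1)) * pcoef s x (dropLast σ) c with hφ₀
  set ψ₂ : Cube (N + 1) → PertIdx N L → ℝ :=
    fun σ c => Real.sqrt (1 - θ ^ (c.1.val + 1)) * pcoef s x (dropLast σ) c with hψ₂
  set ψ₁ : Cube (N + 1) → PertIdx (N + 1) L → ℝ :=
    fun σ c => if ∀ i, c.2 i ≠ Fin.last N then 0 else pcoef s x σ c with hψ₁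
  have key : ∀ (w : PertIdx N L → ℝ) (σ τ : Cube (N + 1)), (∀ c, 0 ≤ w c) →
      ∑ c, (Real.sqrt (w c) * pcoef s x (dropLast σ) c) *
        (Real.sqrt (w c) * pcoef s x (dropLast τ) c) =
      ∑ c, w c * (pcoef s x (dropLast σ) c * pcoef s x (dropLast τ) c) := fun w σ τ hw =>
    Finset.sum_congr rfl fun c _ => by
      rw [mul_mul_mul_comm, Real.mul_self_sqrt (hw c)]
  have h0 : ∀ σ τ, ∑ c, φ₀ σ c * φ₀ τ c =
      ∑ p, amp s x p ^ 2 * (θ * overlap (dropLast σ) (dropLast τ)) ^ (p.val + 1) := by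
    intro σ τ
    rw [key (fun c => θ ^ (c.1.val + 1)) σ τ fun _ => pow_nonneg hθ0 _]
    have := pcov_filter s x (dropLast σ) (dropLast τ) fun _ => θ
    simp only [Finset.prod_const, Finset.card_univ, Fintype.card_fin] at this
    rw [← Finset.sum_mul, sum_unitVec_mul] at this
    simp only [mul_comm θ]
    rw [← this]
    exact Finset.sum_congr rfl fun c _ => mul_comm _ _
  have h₁ : ∀ σ τ, ∑ c, pcoef s x σ c * pcoef s x τ c =
      ∑ c, φ₀ σ c * φ₀ τ c + ∑ c, ψ₁ σ c * ψ₁ τ c := by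
    intro σ τ
    have h := pcov_filter s x σ τ fun i => if i = Fin.last N then 0 else 1
    have e : ∑ i, unitVec σ i * unitVec τ i * (if i = Fin.last N then 0 else 1) =
        θ * overlap (dropLast σ) (dropLast τ) := by
      rw [Fin.sum_univ_castSucc, ← sum_unitVec_mul, Finset.mul_sum]
      simp only [if_neg (Fin.castSucc_ne_last _), if_true, mul_zero, add_zero, mul_one]
      refine Finset.sum_congr rfl fun i _ => ?_
      rw [unitVec_castSucc, unitVec_castSucc, mul_mul_mul_comm, Real.mul_self_sqrt hθ0]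
    rw [e, ← h0] at h
    rw [← h, ← Finset.sum_add_distrib]
    refine Finset.sum_congr rfl fun c _ => ?_
    by_cases hc : ∀ i, c.2 i ≠ Fin.last N
    · simp [hψ₁, hc]
    · obtain ⟨i, hi⟩ := not_forall_not.1 hc
      rw [Finset.prod_eq_zero (Finset.mem_univ i) (by simp [hi])]
      simp [hψ₁, hc]
  have h₂ : ∀ σ τ : Cube (N + 1),
      ∑ c, pcoef s x (dropLast σ) c * pcoef s x (dropLast τ) c =
      ∑ c, φ₀ σ c * φ₀ τ c + ∑ c, ψ₂ σ c * ψ₂ τ c := by
    intro σ τ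
    rw [key (fun c => θ ^ (c.1.val + 1)) σ τ fun _ => pow_nonneg hθ0 _,
      key (fun c => 1 - θ ^ (c.1.val + 1)) σ τ fun _ => hρ _, ← Finset.sum_add_distrib]
    exact Finset.sum_congr rfl fun c _ => by ring
  have hb : ∑ p, amp s x p ^ 2 * (1 - θ ^ (p.val + 1)) ≤ 4 * s ^ 2 / (N + 1) := by
    calc ∑ p, amp s x p ^ 2 * (1 - θ ^ (p.val + 1))
        ≤ ∑ p : Fin L, 4 * s ^ 2 * (1 / 4) ^ (p.val + 1) * ((p.val + 1 : ℕ) / (N + 1 : ℝ)) := by
          refine Finset.sum_le_sum fun p _ => mul_le_mul (amp_sq_le hx p) ?_ (hρ _) (by positivity)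
          have hb := one_add_mul_le_pow (a := θ - 1) (by linarith) (p.val + 1)
          rw [show 1 + (θ - 1) = θ by ring] at hb
          have : θ - 1 = -1 / (N + 1 : ℝ) := by rw [hθ]; field_simp; ring
          rw [this, mul_div_assoc', mul_neg_one, neg_div] at hb
          linarith
      _ ≤ ∑ p : Fin L, 4 * s ^ 2 / (N + 1) * (1 / 2) ^ (p.val + 1) := by
          refine Finset.sum_le_sum fun p _ => ?_
          have h2 : ((p.val + 1 : ℕ) : ℝ) ≤ 2 ^ (p.val + 1) := by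
            exact_mod_cast (Nat.lt_two_pow_self (n := p.val + 1)).le
          calc 4 * s ^ 2 * (1 / 4) ^ (p.val + 1) * ((p.val + 1 : ℕ) / (N + 1 : ℝ))
              = 4 * s ^ 2 / (N + 1) * ((1 / 4) ^ (p.val + 1) * (p.val + 1 : ℕ)) := by ring
            _ ≤ 4 * s ^ 2 / (N + 1) * ((1 / 4) ^ (p.val + 1) * 2 ^ (p.val + 1)) := by gcongr
            _ = _ := by rw [← mul_pow]; norm_num
      _ ≤ _ := by
          rw [← Finset.mul_sum]
          exact mul_le_of_le_one_right (by positivity) (sum_half_pow_le L)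
  have hd : ∀ σ, ∑ p, amp s x p ^ 2 * (1 - θ ^ (p.val + 1)) =
      (∑ p, amp s x p ^ 2) - ∑ c, φ₀ σ c * φ₀ σ c := by
    intro σ
    rw [h0, overlap_self hN, mul_one, ← Finset.sum_sub_distrib]
    exact Finset.sum_congr rfl fun p _ => by ring
  have := field_compare A (pcoef s x) (fun σ => pcoef s x (dropLast σ)) φ₀ ψ₁ ψ₂ h₁ h₂
    (v := 4 * s ^ 2 / (N + 1)) (fun σ => by
      have h := h₁ σ σ
      simp only [← sq] at h
      rw [pvar (Nat.succ_pos N)] at h
      have := hd σ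
      simp only [← sq] at this
      linarith)
    (fun σ => by
      have h := h₂ σ σ
      simp only [← sq] at h
      rw [pvar hN] at h
      have := hd σ
      simp only [← sq] at this
      linarith)
  simp only [pertH_eq]
  refine le_of_le_of_eq this (by ring)

/-- One more power and a stronger perturbation. -/
theorem strength_compare (hN : 0 < N) (A : Cube N → ℝ) {s s' : ℝ} (hs : s ^ 2 ≤ s' ^ 2)
    {x : Fin (L + 1) → ℝ} (hx : ∀ i, x i ∈ Set.Icc (1 : ℝ) 2) :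
    |∫ J, (logZ fun σ => A σ + pertH s' x J σ) ∂gam (PertIdx N (L + 1)) -
      ∫ J, (logZ fun σ => A σ + pertH s (fun i => x i.castSucc) J σ) ∂gam (PertIdx N L)| ≤
      2 * (s' ^ 2 - s ^ 2) + 2 * s' ^ 2 * (1 / 4) ^ (L + 1) := by
  set y : Fin (L + 1) → ℝ :=
    Fin.snoc (fun i => Real.sqrt (s' ^ 2 - s ^ 2) * x i.castSucc) (s' * x (Fin.last L)) with hy
  have hamp : ∀ p : Fin L, amp 1 y p.castSucc ^ 2 =
      amp s' x p.castSucc ^ 2 - amp s (fun i => x i.castSucc) p ^ 2 := by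
    intro p
    simp only [amp, hy, Fin.snoc_castSucc, Fin.val_castSucc, mul_pow,
      Real.sq_sqrt (sub_nonneg.2 hs)]
    ring
  have hlast : amp 1 y (Fin.last L) = amp s' x (Fin.last L) := by
    simp [amp, hy, Fin.snoc_last]
  have h₁ : ∀ σ τ : Cube N, ∑ c, pcoef s' x σ c * pcoef s' x τ c =
      ∑ c, pcoef s (fun i => x i.castSucc) σ c * pcoef s (fun i => x i.castSucc) τ c +
        ∑ c, pcoef 1 y σ c * pcoef 1 y τ c := by
    intro σ τ
    simp only [pcov, Fin.sum_univ_castSucc, hamp, hlast, Fin.val_castSucc, sub_mul,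
      Finset.sum_sub_distrib]
    ring
  have hv : ∀ σ : Cube N, ∑ c, pcoef 1 y σ c ^ 2 ≤
      4 * (s' ^ 2 - s ^ 2) + 4 * s' ^ 2 * (1 / 4) ^ (L + 1) := by
    intro σ
    rw [pvar hN, Fin.sum_univ_castSucc, hlast]
    refine add_le_add ?_ ((amp_sq_le hx (Fin.last L)).trans_eq (by simp))
    have := sum_amp_sq_le (s := Real.sqrt (s' ^ 2 - s ^ 2)) (fun i => hx (Fin.castSucc i))
    rw [Real.sq_sqrt (sub_nonneg.2 hs)] at this
    refine le_of_eq_of_le (Finset.sum_congr rfl fun p _ => ?_) this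
    simp [amp, hy, Fin.snoc_castSucc]
  have := field_compare A (pcoef s' x) (pcoef s fun i => x i.castSucc)
    (pcoef s fun i => x i.castSucc) (pcoef 1 y) (fun _ (_ : Fin 0) => (0 : ℝ)) h₁
    (fun σ τ => by simp) hv
    (fun σ => le_trans (by simp) (le_trans (Finset.sum_nonneg fun c _ => sq_nonneg _) (hv σ)))
  simp only [pertH_eq]
  linarith

/-- The perturbation costs at most half its variance. -/
theorem pert_gap (hN : 0 < N) (A : Cube N → ℝ) (s : ℝ) {x : Fin L → ℝ}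
    (hx : ∀ i, x i ∈ Set.Icc (1 : ℝ) 2) :
    |∫ J, (logZ fun σ => A σ + pertH s x J σ) ∂gam (PertIdx N L) - logZ A| ≤ 2 * s ^ 2 := by
  obtain ⟨h1, h2⟩ := Vale.Agent.P168.Limit.SelfAvg.field_gap A (pcoef s x)
    (v := 4 * s ^ 2) fun σ => (pvar hN s x σ).trans_le (sum_amp_sq_le hx)
  simp only [pertH_eq]
  rw [abs_le]
  exact ⟨by nlinarith [sq_nonneg s], by linarith⟩

end Vale.Agent.P157.Parisi.Cavity
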