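import Vale.Agent.P157.Parisi.Cavity.Pert
import Vale.Agent.P168.Limit.ToolkitPoisson
import Vale.Agent.P168.Limit.SelfAvg.Convex
import Vale.Agent.P157.Stein

/-!
Reduction of `logPartS` and `cavVal` to finitely many patterns, and the split of patterns of
`N + 1` coordinates.
-/

noncomputable section

open MeasureTheory ProbabilityTheory
open scoped BigOperators NNReal

namespace Vale.Agent.P157.Parisi.Cavity

open Vale.Agent.P168.Limit (logZ gw gav)
open Vale.Agent.P168.Limit.SelfAvg (field abs_field_le)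
open Vale.Agent.P168.Toolkit (integrable_count)

variable {N L n : ℕ} {f : ℝ → ℝ} {A s T : ℝ} {x : Fin L → ℝ}

lemma Smooth.A_nonneg (hf : Smooth f A) : 0 ≤ A := (abs_nonneg _).trans (hf.b0 0)

/-- The pattern part. -/
def patH (f : ℝ → ℝ) (g : Fin n → Fin N → ℝ) (σ : Cube N) : ℝ :=
  ∑ a, f (dot (g a) (unitVec σ))

lemma abs_patH_le (hf : Smooth f A) (g : Fin n → Fin N → ℝ) (σ : Cube N) :
    |patH f g σ| ≤ n * A :=
  (Finset.abs_sum_le_sum_abs _ _).trans <|
    (Finset.sum_le_card_nsmul _ _ A fun _ _ => hf.b0 _).trans_eq (by simp)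

/-- `n` patterns and a perturbation. -/
abbrev Base (N L n : ℕ) := (Fin n → Fin N → ℝ) × (PertIdx N L → ℝ)

/-- Their law. -/
def baseLaw (N L n : ℕ) : Measure (Base N L n) :=
  (Measure.pi fun _ : Fin n => gam (Fin N)).prod (gam (PertIdx N L))

instance : IsProbabilityMeasure (baseLaw N L n) := by unfold baseLaw; infer_instance

/-- The Hamiltonian. -/
def ham (f : ℝ → ℝ) (s : ℝ) (x : Fin L → ℝ) (b : Base N L n) (σ : Cube N) : ℝ :=
  patH f b.1 σ + pertH s x b.2 σ

/-- The mean of `log Z` with `n` patterns. -/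
def logZn (N n : ℕ) {L : ℕ} (f : ℝ → ℝ) (s : ℝ) (x : Fin L → ℝ) : ℝ :=
  ∫ b : Base N L n, logZ (ham f s x b) ∂baseLaw N L n

lemma measurable_dot_unit {α : Type*} [MeasurableSpace α] {g : α → Fin N → ℝ} (hg : Measurable g)
    (σ : Cube N) : Measurable fun a => dot (g a) (unitVec σ) := by
  unfold dot; fun_prop

lemma continuous_smooth (hf : Smooth f A) : Continuous f := hf.d0.continuous

lemma measurable_patH (hf : Smooth f A) (σ : Cube N) :
    Measurable fun g : Fin n → Fin N → ℝ => patH f g σ :=
  Finset.measurable_sum _ fun a _ =>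
    (continuous_smooth hf).measurable.comp (measurable_dot_unit (measurable_pi_apply a) σ)

lemma measurable_ham (hf : Smooth f A) (σ : Cube N) :
    Measurable fun b : Base N L n => ham f s x b σ := by
  refine ((measurable_patH hf σ).comp measurable_fst).add ?_
  unfold pertH; fun_prop

lemma measurable_logZ_of {α X : Type*} [MeasurableSpace α] [Fintype X] {H : α → X → ℝ}
    (h : ∀ σ, Measurable fun a => H a σ) : Measurable fun a => logZ (H a) := by
  unfold logZ; fun_prop

lemma logZ_zero (N : ℕ) : logZ (fun _ : Cube N => (0 : ℝ)) = N * Real.log 2 := by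
  simp [logZ]

/-- The coefficient sum of the perturbation. -/
def pcoefSum (s : ℝ) (x : Fin L → ℝ) (c : PertIdx N L) : ℝ := ∑ σ : Cube N, |pcoef s x σ c|

lemma abs_logZ_le (hf : Smooth f A) (g : Fin n → Fin N → ℝ) {m : ℕ} (h : Cube m → Cube N)
    (J : PertIdx N L → ℝ) :
    |logZ (fun σ => patH f g (h σ) + pertH s x J (h σ)) - m * Real.log 2| ≤
      n * A + ∑ c, pcoefSum s x c * |J c| := by
  have hb := Vale.Agent.P168.Limit.SelfAvg.abs_logZ_sub_le' (fun _ : Cube m => (0 : ℝ))
    (fun σ => patH f g (h σ) + pertH s x J (h σ)) (c := n * A + ∑ c, pcoefSum s x c * |J c|)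
    fun σ => (abs_add_le _ _).trans (add_le_add (abs_patH_le hf g _) (by
      rw [pertH_eq]; exact abs_field_le _ _ _))
  simpa [logZ_zero] using hb

lemma abs_logZ_ham_le (hf : Smooth f A) (b : Base N L n) :
    |logZ (ham f s x b) - N * Real.log 2| ≤ n * A + ∑ c, pcoefSum s x c * |b.2 c| :=
  abs_logZ_le hf b.1 id b.2

/-- The linear majorant in the perturbation. -/
def jBound (k : PertIdx N L → ℝ) (J : PertIdx N L → ℝ) : ℝ := ∑ c, k c * |J c|

lemma integrable_jBound (k : PertIdx N L → ℝ) :
    Integrable (jBound k) (gam (PertIdx N L)) :=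
  integrable_finsetSum _ fun c _ => (integrable_abs_coord c).const_mul _

lemma integrable_base {G : Base N L n → ℝ} (hm : Measurable G) {K : ℝ} {k : PertIdx N L → ℝ}
    (h : ∀ b, |G b| ≤ K + jBound k b.2) : Integrable G (baseLaw N L n) :=
  ((integrable_const K).add ((integrable_jBound k).comp_snd _)).mono' hm.aestronglyMeasurable
    (ae_of_all _ h)

lemma measurePreserving_take (N n : ℕ) :
    MeasurePreserving (fun (g : ℕ → Fin N → ℝ) (a : Fin n) => g a)
      (Measure.infinitePi fun _ : ℕ => gam (Fin N)) (Measure.pi fun _ : Fin n => gam (Fin N)) := by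
  have hm : Measurable fun (g : ℕ → Fin N → ℝ) (a : Fin n) => g a := by fun_prop
  refine ⟨hm, (Measure.pi_eq fun t ht => ?_).symm⟩
  rw [Measure.map_apply hm (MeasurableSet.univ_pi ht)]
  have e : (fun (g : ℕ → Fin N → ℝ) (a : Fin n) => g a) ⁻¹' Set.univ.pi t =
      Set.pi ↑(Finset.range n) fun a => if h : a < n then t ⟨a, h⟩ else Set.univ := by
    ext g
    simp only [Set.mem_preimage, Set.mem_pi, Finset.coe_range, Set.mem_Iio]
    exact ⟨fun h a ha => by rw [dif_pos ha]; exact h ⟨a, ha⟩ trivial,
      fun h a _ => by have := h a a.2; rwa [dif_pos a.2] at this⟩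
  rw [e, Measure.infinitePi_pi, Finset.prod_range]
  · exact Finset.prod_congr rfl fun a _ => by rw [dif_pos a.2]
  · intro a ha
    rw [dif_pos (Finset.mem_range.1 ha)]
    exact ht _

lemma measurePreserving_take_real (n : ℕ) :
    MeasurePreserving (fun (z : ℕ → ℝ) (a : Fin n) => z a)
      (Measure.infinitePi fun _ : ℕ => gaussianReal 0 1) (gam (Fin n)) := by
  have hm : Measurable fun (z : ℕ → ℝ) (a : Fin n) => z a := by fun_prop
  refine ⟨hm, (Measure.pi_eq fun t ht => ?_).symm⟩
  rw [Measure.map_apply hm (MeasurableSet.univ_pi ht)]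
  have e : (fun (z : ℕ → ℝ) (a : Fin n) => z a) ⁻¹' Set.univ.pi t =
      Set.pi ↑(Finset.range n) fun a => if h : a < n then t ⟨a, h⟩ else Set.univ := by
    ext g
    simp only [Set.mem_preimage, Set.mem_pi, Finset.coe_range, Set.mem_Iio]
    exact ⟨fun h a ha => by rw [dif_pos ha]; exact h ⟨a, ha⟩ trivial,
      fun h a _ => by have := h a a.2; rwa [dif_pos a.2] at this⟩
  rw [e, Measure.infinitePi_pi, Finset.prod_range]
  · exact Finset.prod_congr rfl fun a _ => by rw [dif_pos a.2]
  · intro a ha
    rw [dif_pos (Finset.mem_range.1 ha)]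
    exact ht _

/-- An integral over the disorder, pattern count by pattern count. -/
theorem integral_disLaw (μ : ℝ) (G : (n : ℕ) → Base N L n → ℝ) (hm : ∀ n, Measurable (G n))
    {K₀ K : ℝ} {k : PertIdx N L → ℝ} (hb : ∀ n b, |G n b| ≤ K₀ + K * n + jBound k b.2) :
    ∫ d : Dis N L, G d.1 (fun a => d.2.1 a, d.2.2) ∂disLaw N L μ =
      ∫ n, (∫ b, G n b ∂baseLaw N L n) ∂poissonMeasure μ.toNNReal := by
  have hd : Integrable (fun d : Dis N L => G d.1 (fun a => d.2.1 a, d.2.2)) (disLaw N L μ) := by
    refine Integrable.mono' (g := fun d => (K₀ + K * (d.1 : ℝ)) + jBound k d.2.2) ?_ ?_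
      (ae_of_all _ fun d => hb _ _)
    · exact (((integrable_const K₀).add ((integrable_count _).const_mul K)).comp_fst _).add
        (((integrable_jBound k).comp_snd _).comp_snd _)
    · refine (measurable_from_prod_countable_right fun n => ?_).aestronglyMeasurable
      exact (hm n).comp (((measurePreserving_take N n).measurable.comp measurable_fst).prodMk
        measurable_snd)
  rw [disLaw, integral_prod _ hd]
  refine integral_congr_ae (ae_of_all _ fun n => ?_)
  have hmp := (measurePreserving_take N n).prod (MeasurePreserving.id (gam (PertIdx N L)))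
  dsimp only
  rw [show baseLaw N L n = (Measure.pi fun _ : Fin n => gam (Fin N)).prod (gam (PertIdx N L))
    from rfl, ← hmp.map_eq, integral_map hmp.measurable.aemeasurable (hm n).aestronglyMeasurable]
  rfl

theorem logPartS_eq (hf : Smooth f A) (μ : ℝ) :
    logPartS N f s x μ = ∫ n, (logZn N n f s x - N * Real.log 2) ∂poissonMeasure μ.toNNReal := by
  have h := integral_disLaw μ (fun n (b : Base N L n) => logZ (ham f s x b) - N * Real.log 2)
    (fun n => (measurable_logZ_of (measurable_ham hf)).sub_const _) (K₀ := 0) (K := A)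
    (k := pcoefSum s x) (fun n b => (abs_logZ_ham_le hf b).trans_eq (by unfold jBound; ring))
  refine (Eq.trans ?_ h).trans (integral_congr_ae (ae_of_all _ fun n => ?_))
  · refine integral_congr_ae (ae_of_all _ fun d => ?_)
    show Real.log ((∑ σ, Real.exp (totalH f s x d σ)) / 2 ^ N) = _
    rw [Real.log_div (Vale.Agent.P168.Limit.sum_exp_pos _).ne' (by positivity),
      Real.log_pow]
    simp [logZ, ham, patH, totalH, Finset.sum_range]
  · show ∫ b, (logZ (ham f s x b) - _) ∂baseLaw N L n = _
    rw [integral_sub ?_ (integrable_const _)]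
    · simp [logZn]
    · refine integrable_base (K := N * Real.log 2 + n * A) (k := pcoefSum s x)
        (measurable_logZ_of (measurable_ham hf)) fun b => ?_
      have h1 := abs_logZ_ham_le (s := s) (x := x) hf b
      have h2 : |logZ (ham f s x b)| ≤ |logZ (ham f s x b) - N * Real.log 2| + |N * Real.log 2| := by
        simpa using abs_add_le (logZ (ham f s x b) - N * Real.log 2) (N * Real.log 2)
      rw [abs_of_nonneg (by positivity : (0 : ℝ) ≤ N * Real.log 2)] at h2
      unfold jBound
      linarith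

/-- The cavity field with `n` patterns. -/
def cY (f : ℝ → ℝ) (g : Fin n → Fin N → ℝ) (z : Fin n → ℝ) (σ : Cube N) : ℝ :=
  (∑ a, z a * deriv f (dot (g a) (unitVec σ))) / Real.sqrt N

/-- The cavity exponent with `n` patterns. -/
def cB (f : ℝ → ℝ) (T : ℝ) (g : Fin n → Fin N → ℝ) (σ : Cube N) : ℝ :=
  (∑ a, (deriv (deriv f) (dot (g a) (unitVec σ)) -
    clampT T (dot (g a) (unitVec σ)) * deriv f (dot (g a) (unitVec σ)))) / (2 * N)

/-- The cavity integrand. -/
def cavInt (f : ℝ → ℝ) (T s : ℝ) (x : Fin L → ℝ) (b : Base N L n) (z : Fin n → ℝ) : ℝ :=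
  Real.log (gav (ham f s x b) fun σ => Real.cosh (cY f b.1 z σ) * Real.exp (cB f T b.1 σ))

/-- Its mean over the new coordinates of the patterns. -/
def cavMean (f : ℝ → ℝ) (T s : ℝ) (x : Fin L → ℝ) (b : Base N L n) : ℝ :=
  ∫ z, cavInt f T s x b z ∂gam (Fin n)

/-- The bound on one term of the cavity exponent. -/
def bCav (A T : ℝ) (N : ℕ) : ℝ := (A + T * A) / (2 * N)

lemma abs_clampT_le (hT : 0 ≤ T) (z : ℝ) : |clampT T z| ≤ T := by
  rw [clampT, abs_le]
  exact ⟨le_max_left _ _, max_le (by linarith) (min_le_left _ _)⟩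

lemma abs_cB_le (hf : Smooth f A) (hT : 0 ≤ T) (g : Fin n → Fin N → ℝ) (σ : Cube N) :
    |cB f T g σ| ≤ n * bCav A T N := by
  have hN : (0 : ℝ) ≤ 2 * N := by positivity
  rw [cB, abs_div, abs_of_nonneg hN, bCav, ← mul_div_assoc]
  refine div_le_div_of_nonneg_right ((Finset.abs_sum_le_sum_abs _ _).trans
    ((Finset.sum_le_card_nsmul _ _ (A + T * A) fun a _ => ?_).trans_eq (by simp; ring))) hN
  refine (abs_sub _ _).trans (add_le_add (hf.b2 _) ?_)
  rw [abs_mul]
  exact mul_le_mul (abs_clampT_le hT _) (hf.b1 _) (abs_nonneg _) hT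

lemma abs_cY_le (hf : Smooth f A) (g : Fin n → Fin N → ℝ) (z : Fin n → ℝ) (σ : Cube N) :
    |cY f g z σ| ≤ A * ∑ a, |z a| := by
  have h : |∑ a, z a * deriv f (dot (g a) (unitVec σ))| ≤ A * ∑ a, |z a| := by
    refine (Finset.abs_sum_le_sum_abs _ _).trans ?_
    rw [Finset.mul_sum]
    exact Finset.sum_le_sum fun a _ => by
      rw [abs_mul, mul_comm A]; exact mul_le_mul_of_nonneg_left (hf.b1 _) (abs_nonneg _)
  rw [cY, abs_div, abs_of_nonneg (Real.sqrt_nonneg _)]
  rcases N.eq_zero_or_pos with rfl | hN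
  · simpa using mul_nonneg (Smooth.A_nonneg hf) (Finset.sum_nonneg fun a _ => abs_nonneg (z a))
  · exact (div_le_self (abs_nonneg _) (by
      rw [Real.one_le_sqrt, Nat.one_le_cast]; exact hN)).trans h

lemma abs_cavInt_le (hf : Smooth f A) (hT : 0 ≤ T) (b : Base N L n) (z : Fin n → ℝ) :
    |cavInt f T s x b z| ≤ n * bCav A T N + A * ∑ a, |z a| := by
  set M := n * bCav A T N + A * ∑ a, |z a| with hM
  have h : ∀ σ, Real.exp (-M) ≤ Real.cosh (cY f b.1 z σ) * Real.exp (cB f T b.1 σ) ∧
      Real.cosh (cY f b.1 z σ) * Real.exp (cB f T b.1 σ) ≤ Real.exp M := by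
    intro σ
    have hB := abs_le.1 (abs_cB_le hf hT b.1 σ)
    have h0 : 0 ≤ A * ∑ a, |z a| := (abs_nonneg _).trans (abs_cY_le hf b.1 z σ)
    constructor
    · calc Real.exp (-M) ≤ 1 * Real.exp (cB f T b.1 σ) := by
            rw [one_mul]; exact Real.exp_le_exp.2 (by linarith)
        _ ≤ _ := mul_le_mul_of_nonneg_right (Real.one_le_cosh _) (Real.exp_pos _).le
    · rw [hM, add_comm, Real.exp_add]
      refine mul_le_mul ?_ (Real.exp_le_exp.2 hB.2) (Real.exp_pos _).le (Real.exp_pos _).le
      rw [Real.cosh_eq]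
      have h1 : Real.exp (cY f b.1 z σ) ≤ Real.exp (A * ∑ a, |z a|) :=
        Real.exp_le_exp.2 ((le_abs_self _).trans (abs_cY_le hf b.1 z σ))
      have h2 : Real.exp (-cY f b.1 z σ) ≤ Real.exp (A * ∑ a, |z a|) :=
        Real.exp_le_exp.2 ((neg_le_abs _).trans (abs_cY_le hf b.1 z σ))
      linarith
  have h1 := Vale.Agent.P168.Limit.gav_mono (ham f s x b) fun σ => (h σ).1
  have h2 := Vale.Agent.P168.Limit.gav_mono (ham f s x b) fun σ => (h σ).2
  rw [Vale.Agent.P168.Limit.gav_const] at h1 h2
  have hp := lt_of_lt_of_le (Real.exp_pos _) h1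
  rw [cavInt, abs_le, Real.le_log_iff_exp_le hp, Real.log_le_iff_le_exp hp]
  exact ⟨h1, h2⟩

lemma measurable_cavInt (hf : Smooth f A) :
    Measurable fun p : Base N L n × (Fin n → ℝ) => cavInt f T s x p.1 p.2 := by
  have hd1 := hf.d1.continuous.measurable
  have hd2 := hf.d2.continuous.measurable
  have hg : ∀ a σ, Measurable fun p : Base N L n × (Fin n → ℝ) => dot (p.1.1 a) (unitVec σ) :=
    fun a σ => measurable_dot_unit (by fun_prop) σ
  have hc : Measurable (clampT T) := by unfold clampT; fun_prop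
  have hH : ∀ σ, Measurable fun p : Base N L n × (Fin n → ℝ) => ham f s x p.1 σ := fun σ =>
    (measurable_ham hf σ).comp measurable_fst
  unfold cavInt gav gw cY cB
  refine Real.measurable_log.comp (Finset.measurable_sum _ fun σ _ => ?_)
  refine ((hH σ).exp.div (Finset.measurable_sum _ fun τ _ => (hH τ).exp)).mul ?_
  refine (Real.continuous_cosh.measurable.comp ((Finset.measurable_sum _ fun a _ =>
    ((measurable_pi_apply a).comp measurable_snd).mul (hd1.comp (hg a σ))).div_const _)).mul
    (Measurable.exp ((Finset.measurable_sum _ fun a _ => ?_).div_const _))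
  exact (hd2.comp (hg a σ)).sub ((hc.comp (hg a σ)).mul (hd1.comp (hg a σ)))

lemma integrable_cavInt (hf : Smooth f A) (hT : 0 ≤ T) (b : Base N L n) :
    Integrable (cavInt f T s x b) (gam (Fin n)) :=
  ((integrable_const (n * bCav A T N)).add ((integrable_coordAbs).const_mul A)).mono'
    ((measurable_cavInt hf).comp measurable_prodMk_left).aestronglyMeasurable
    (ae_of_all _ fun z => abs_cavInt_le hf hT b z)

lemma abs_cavMean_le (hf : Smooth f A) (hT : 0 ≤ T) (b : Base N L n) :
    |cavMean f T s x b| ≤ n * (bCav A T N + A) := by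
  have hi := integrable_finsetSum (Finset.univ : Finset (Fin n))
    fun a _ => integrable_abs_coord (ι := Fin n) a
  refine (abs_integral_le_integral_abs).trans ((integral_mono (integrable_cavInt hf hT b).abs
    ((integrable_const (n * bCav A T N)).add (hi.const_mul A))
    fun z => abs_cavInt_le hf hT b z).trans ?_)
  simp only [Pi.add_apply]
  rw [integral_add (integrable_const _) (hi.const_mul A), integral_const_mul A,
    integral_finsetSum _ fun a _ => integrable_abs_coord a]
  simp only [integral_const, probReal_univ, one_smul, mul_add]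
  refine add_le_add le_rfl ?_
  rw [mul_comm (n : ℝ)]
  refine mul_le_mul_of_nonneg_left ((Finset.sum_le_card_nsmul _ _ 1 fun a _ => ?_).trans_eq
    (by simp)) (Smooth.A_nonneg hf)
  rw [integral_comp_eval (μ := fun _ : Fin n => gaussianReal 0 1) (f := fun y : ℝ => |y|)
    (by fun_prop)]
  exact Vale.Agent.P168.Toolkit.integral_gauss_abs_le

theorem cavVal_eq (hf : Smooth f A) (hT : 0 ≤ T) (μ : ℝ) :
    cavVal N f T s x μ =
      ∫ n, (∫ b : Base N L n, cavMean f T s x b ∂baseLaw N L n) ∂poissonMeasure μ.toNNReal := by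
  rw [← integral_disLaw μ (fun n (b : Base N L n) => cavMean f T s x b)
    (fun n => ((measurable_cavInt hf).stronglyMeasurable.integral_prod_right').measurable)
    (K₀ := 0) (K := bCav A T N + A) (k := fun _ => 0)
    (fun n b => (abs_cavMean_le hf hT b).trans_eq (by simp [jBound]; ring))]
  unfold cavVal
  refine congrArg (integral (disLaw N L μ)) (funext fun d => ?_)
  have hmp := measurePreserving_take_real d.1
  have hm : Measurable (cavInt f T s x ((fun a : Fin d.1 => d.2.1 a, d.2.2) : Base N L d.1)) :=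
    Measurable.of_uncurry_left (f := fun (b : Base N L d.1) z => cavInt f T s x b z)
      (measurable_cavInt (T := T) (s := s) (x := x) hf)
  show _ = ∫ z, cavInt f T s x _ z ∂gam (Fin d.1)
  rw [← hmp.map_eq, integral_map hmp.measurable.aemeasurable hm.aestronglyMeasurable]
  refine integral_congr_ae (ae_of_all _ fun z => ?_)
  simp only [cavInt, gav, gw, sysState, cavY, cavB, cY, cB, ham, patH, totalH, Finset.sum_range]

lemma measurePreserving_snoc (N : ℕ) :
    MeasurePreserving (fun p : (Fin N → ℝ) × ℝ => (Fin.snoc p.1 p.2 : Fin (N + 1) → ℝ))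
      ((gam (Fin N)).prod (gaussianReal 0 1)) (gam (Fin (N + 1))) := by
  have hm : Measurable fun p : (Fin N → ℝ) × ℝ => (Fin.snoc p.1 p.2 : Fin (N + 1) → ℝ) := by
    refine measurable_pi_lambda _ fun i => ?_
    induction i using Fin.lastCases with
    | last => simp only [Fin.snoc_last]; exact measurable_snd
    | cast i => simp only [Fin.snoc_castSucc]; fun_prop
  refine ⟨hm, (Measure.pi_eq fun t ht => ?_).symm⟩
  rw [Measure.map_apply hm (MeasurableSet.univ_pi ht)]
  have e : (fun p : (Fin N → ℝ) × ℝ => (Fin.snoc p.1 p.2 : Fin (N + 1) → ℝ)) ⁻¹' Set.univ.pi t =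
      (Set.univ.pi fun i : Fin N => t i.castSucc) ×ˢ t (Fin.last N) := by
    ext p
    simp [Set.mem_pi, Fin.forall_fin_succ']
  rw [e, Measure.prod_prod, Measure.pi_pi, Fin.prod_univ_castSucc]

/-- The patterns of the larger system, assembled. -/
def snocPat (g : Fin n → Fin N → ℝ) (z : Fin n → ℝ) : Fin n → Fin (N + 1) → ℝ :=
  fun a => Fin.snoc (g a) (z a)

lemma measurePreserving_snocPat (N n : ℕ) :
    MeasurePreserving (fun p : (Fin n → Fin N → ℝ) × (Fin n → ℝ) => snocPat p.1 p.2)
      ((Measure.pi fun _ : Fin n => gam (Fin N)).prod (gam (Fin n)))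
      (Measure.pi fun _ : Fin n => gam (Fin (N + 1))) := by
  have h1 := (measurePreserving_arrowProdEquivProdArrow (Fin N → ℝ) ℝ (Fin n)
    (fun _ => gam (Fin N)) (fun _ => gaussianReal 0 1)).symm
  have h2 := measurePreserving_pi (fun _ : Fin n => (gam (Fin N)).prod (gaussianReal 0 1))
    (fun _ => gam (Fin (N + 1))) fun _ => measurePreserving_snoc N
  exact h2.comp h1

/-- Base, new coordinates, and the larger patterns with the same perturbation. -/
lemma measurePreserving_grow (N L n : ℕ) :
    MeasurePreserving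
      (fun p : Base N L n × (Fin n → ℝ) => (snocPat p.1.1 p.2, p.1.2))
      ((baseLaw N L n).prod (gam (Fin n)))
      ((Measure.pi fun _ : Fin n => gam (Fin (N + 1))).prod (gam (PertIdx N L))) := by
  have h1 := measurePreserving_prodAssoc (Measure.pi fun _ : Fin n => gam (Fin N))
    (gam (PertIdx N L)) (gam (Fin n))
  have h2 := (MeasurePreserving.id (Measure.pi fun _ : Fin n => gam (Fin N))).prod
    (Measure.measurePreserving_swap (μ := gam (PertIdx N L)) (ν := gam (Fin n)))
  have h3 := (measurePreserving_prodAssoc (Measure.pi fun _ : Fin n => gam (Fin N))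
    (gam (Fin n)) (gam (PertIdx N L))).symm
  have h4 := (measurePreserving_snocPat N n).prod (MeasurePreserving.id (gam (PertIdx N L)))
  exact h4.comp (h3.comp (h2.comp h1))

end Vale.Agent.P157.Parisi.Cavity
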