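import Vale.Agent.P157.Parisi.Cavity.Finite

/-!
The new site, pointwise: second order expansion of the patterns and the tilted Jensen bound.
-/

noncomputable section

open MeasureTheory ProbabilityTheory
open scoped BigOperators

namespace Vale.Agent.P157.Parisi.Cavity

open Vale.Agent.P168.Limit (logZ gw gav)

variable {N L n : ℕ} {f : ℝ → ℝ} {A s T : ℝ} {x : Fin L → ℝ}

/-- Second order Taylor bound. -/
lemma taylor_two (hf : Smooth f A) (S d : ℝ) :
    f S + deriv f S * d + deriv (deriv f) S * d ^ 2 / 2 - A * |d| ^ 3 ≤ f (S + d) := by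
  set ψ : ℝ → ℝ := fun t => f (S + t) - f S - deriv f S * t - deriv (deriv f) S * t ^ 2 / 2 with hψ
  set ψ1 : ℝ → ℝ := fun t => deriv f (S + t) - deriv f S - deriv (deriv f) S * t with hψ1
  set ψ2 : ℝ → ℝ := fun t => deriv (deriv f) (S + t) - deriv (deriv f) S with hψ2
  have sh : ∀ {F : ℝ → ℝ}, Differentiable ℝ F → ∀ t : ℝ,
      HasDerivAt (fun t => F (S + t)) (deriv F (S + t)) t := fun {F} hF t =>
    HasDerivAt.comp_const_add S t (hF (S + t)).hasDerivAt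
  have h0 : ∀ t, HasDerivAt ψ (ψ1 t) t := fun t => by
    refine ((((sh hf.d0 t).sub_const (f S)).sub ((hasDerivAt_id' t).const_mul (deriv f S))).sub
      ((((hasDerivAt_id' t).pow 2).const_mul (deriv (deriv f) S)).div_const 2)).congr_deriv ?_
    simp only [hψ1]; ring
  have h1 : ∀ t, HasDerivAt ψ1 (ψ2 t) t := fun t => by
    refine (((sh hf.d1 t).sub_const (deriv f S)).sub
      ((hasDerivAt_id' t).const_mul (deriv (deriv f) S))).congr_deriv ?_
    simp only [hψ2]; ring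
  have h2 : ∀ t, HasDerivAt ψ2 (deriv (deriv (deriv f)) (S + t)) t := fun t =>
    (sh hf.d2 t).sub_const _
  have hA : 0 ≤ A := Smooth.A_nonneg hf
  have mvt : ∀ {F F' : ℝ → ℝ} {c : ℝ}, (∀ t, HasDerivAt F (F' t) t) → F 0 = 0 →
      (∀ t ∈ Set.Icc (-|d|) |d|, |F' t| ≤ c) → ∀ t ∈ Set.Icc (-|d|) |d|, |F t| ≤ c * |d| := by
    intro F F' c hF h00 hb t ht
    have h := (convex_Icc (-|d|) |d|).norm_image_sub_le_of_norm_hasDerivWithin_le
      (fun y _ => (hF y).hasDerivWithinAt) hb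
      (Set.mem_Icc.2 ⟨neg_nonpos.2 (abs_nonneg d), abs_nonneg d⟩) ht
    rw [h00, sub_zero, Real.norm_eq_abs, Real.norm_eq_abs, sub_zero] at h
    exact h.trans (mul_le_mul_of_nonneg_left (abs_le.2 ht)
      ((abs_nonneg _).trans (hb t ht)))
  have b2 := mvt h2 (by simp [hψ2]) fun t _ => hf.b3 (S + t)
  have b1 := mvt h1 (by simp [hψ1]) b2
  have b0 := mvt h0 (by simp [hψ]) b1 d ⟨neg_abs_le d, le_abs_self d⟩
  have := (abs_le.1 b0).1
  simp only [hψ] at this
  rw [show A * |d| * |d| * |d| = A * |d| ^ 3 by ring] at this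
  linarith

/-- The sign of a Boolean. -/
def sgn (e : Bool) : ℝ := if e then 1 else -1

/-- The error in the expansion of one pattern. -/
def qTerm (A T : ℝ) (N : ℕ) (S z : ℝ) : ℝ :=
  5 * A * (1 + |z| + |S|) ^ 3 * (1 / Real.sqrt N) ^ 3 + A * |S - clampT T S| / (2 * N)

/-- The small numbers of the expansion. -/
lemma coef_bounds (hN : 0 < N) {r δ κ : ℝ} (hr : r = 1 / Real.sqrt N)
    (hδ : δ = 1 / Real.sqrt (N + 1 : ℝ)) (hκ : κ = 1 - Real.sqrt (N / (N + 1 : ℝ))) :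
    0 ≤ κ ∧ κ ≤ r ^ 2 / 2 ∧ r ^ 2 / 2 - κ ≤ r ^ 3 ∧ 0 ≤ δ ∧ δ ≤ r ∧ r - δ ≤ r ^ 3 ∧
      r ^ 2 - δ ^ 2 ≤ r ^ 3 ∧ r ≤ 1 ∧ 0 < r ∧ r ^ 2 = 1 / N ∧ δ ^ 2 = 1 / (N + 1 : ℝ) := by
  have hN0 : (0 : ℝ) < N := Nat.cast_pos.2 hN
  have hN1 : (1 : ℝ) ≤ N := Nat.one_le_cast.2 hN
  have hr0 : 0 < r := by rw [hr]; positivity
  have hδ0 : 0 ≤ δ := by rw [hδ]; positivity
  have hr2 : r ^ 2 = 1 / N := by rw [hr, div_pow, Real.sq_sqrt hN0.le, one_pow]
  have hδ2 : δ ^ 2 = 1 / (N + 1 : ℝ) := by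
    rw [hδ, div_pow, Real.sq_sqrt (by positivity), one_pow]
  have hr1 : r ≤ 1 := by
    rw [hr, div_le_one (Real.sqrt_pos.2 hN0)]; exact Real.one_le_sqrt.2 hN1
  have hδr : δ ≤ r := by
    rw [hr, hδ]
    exact one_div_le_one_div_of_le (Real.sqrt_pos.2 hN0) (Real.sqrt_le_sqrt (by linarith))
  have hr43 : r ^ 4 ≤ r ^ 3 := pow_le_pow_of_le_one hr0.le hr1 (by norm_num)
  have h4 : 1 / (N : ℝ) - 1 / (N + 1) ≤ r ^ 4 := by
    rw [show r ^ 4 = (r ^ 2) ^ 2 by ring, hr2, div_pow, one_pow,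
      div_sub_div _ _ hN0.ne' (by positivity), div_le_div_iff₀ (by positivity) (by positivity)]
    nlinarith
  have h43 : r ^ 2 - δ ^ 2 ≤ r ^ 3 := by rw [hδ2]; linarith
  set θ : ℝ := Real.sqrt (N / (N + 1 : ℝ)) with hθ
  have hθ2 : θ ^ 2 = N / (N + 1 : ℝ) := Real.sq_sqrt (by positivity)
  have hθ1 : θ ≤ 1 := Real.sqrt_le_one.2 ((div_le_one (by positivity)).2 (by linarith))
  have hθ0 : 0 ≤ θ := Real.sqrt_nonneg _
  have hθl : (N : ℝ) / (N + 1) ≤ θ := by
    rw [← hθ2, sq]; exact mul_le_of_le_one_left hθ0 hθ1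
  have hκ0 : 0 ≤ κ := by linarith
  have hκe : κ * (1 + θ) = r ^ 2 - (r ^ 2 - 1 / (N + 1 : ℝ)) := by
    rw [hκ, show (1 - θ) * (1 + θ) = 1 - θ ^ 2 by ring, hθ2]; field_simp; ring
  have hκl : 1 / (N + 1 : ℝ) ≤ κ * 2 := by
    rw [sub_sub_cancel] at hκe
    rw [← hκe]; exact mul_le_mul_of_nonneg_left (by linarith) hκ0
  have hκu : κ ≤ r ^ 2 / 2 := by
    rw [sub_sub_cancel] at hκe
    have h : (2 * (N : ℝ) + 1) / (N + 1) ≤ 1 + θ := by
      rw [show (2 * (N : ℝ) + 1) / (N + 1) = 1 + N / (N + 1 : ℝ) by field_simp; ring]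
      linarith
    have h5 := mul_le_mul_of_nonneg_left h hκ0
    rw [hκe, mul_div_assoc', div_le_div_iff_of_pos_right (by positivity)] at h5
    rw [hr2, div_div, le_div_iff₀ (by positivity)]
    nlinarith
  refine ⟨hκ0, hκu, by rw [hr2] at *; linarith, hδ0, hδr, ?_, h43, hr1, hr0, hr2, hδ2⟩
  have h6 : (r - δ) * r ≤ r ^ 4 :=
    (mul_le_mul_of_nonneg_left (by linarith : r ≤ r + δ) (by linarith)).trans
      ((le_of_eq (by ring : (r - δ) * (r + δ) = r ^ 2 - δ ^ 2)).trans (by rw [hr2, hδ2] at *; linarith))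
  exact le_of_mul_le_mul_right (h6.trans_eq (by ring)) hr0

/-- The expansion with abstract coefficients. -/
lemma expand_bound {A p q cl S z ε r δ κ U : ℝ} (hA : 0 ≤ A) (hp : |p| ≤ A) (hq : |q| ≤ A)
    (hε : |ε| = 1) (hκ0 : 0 ≤ κ) (hκ : κ ≤ r ^ 2 / 2) (hκ3 : r ^ 2 / 2 - κ ≤ r ^ 3) (hδ0 : 0 ≤ δ)
    (hδ : δ ≤ r) (hδ3 : r - δ ≤ r ^ 3) (hδ23 : r ^ 2 - δ ^ 2 ≤ r ^ 3) (hr1 : r ≤ 1)
    (hU1 : 1 ≤ U) (hzS : |z| + |S| ≤ U) :
    ε * (z * p * r) + (q - cl * p) * (r ^ 2 / 2) + q * (z ^ 2 - 1) * (δ ^ 2 / 2) -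
        (5 * A * U ^ 3 * r ^ 3 + A * |S - cl| * (r ^ 2 / 2)) ≤
      p * (-κ * S + ε * (z * δ)) + q * (-κ * S + ε * (z * δ)) ^ 2 / 2 -
        A * |-κ * S + ε * (z * δ)| ^ 3 := by
  have hr0 : 0 ≤ r := hδ0.trans hδ
  have hzU : |z| ≤ U := by linarith [abs_nonneg S]
  have hSU : |S| ≤ U := by linarith [abs_nonneg z]
  have hU0 : 0 ≤ U := by linarith
  have hU3 : U ≤ U ^ 3 := le_self_pow₀ hU1 three_ne_zero
  have hU23 : U ^ 2 ≤ U ^ 3 := pow_le_pow_right₀ hU1 (by norm_num)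
  have hε2 : ε * ε = 1 := by rw [← abs_mul_abs_self, hε, one_mul]
  set M := U ^ 3 * r ^ 3 with hM
  have a1 : |p * (ε * z * (δ - r))| ≤ A * M := by
    rw [abs_mul, abs_mul, abs_mul, hε, one_mul]
    refine mul_le_mul hp ?_ (by positivity) hA
    exact mul_le_mul (hzU.trans hU3) (by rw [abs_sub_comm, abs_of_nonneg (by linarith)]; exact hδ3)
      (abs_nonneg _) (by positivity)
  have a2 : |p * ((cl - S) * (r ^ 2 / 2))| ≤ A * |S - cl| * (r ^ 2 / 2) := by
    rw [abs_mul, abs_mul, abs_sub_comm, abs_of_nonneg (by positivity : 0 ≤ r ^ 2 / 2), ← mul_assoc]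
    gcongr
  have a3 : |p * ((r ^ 2 / 2 - κ) * S)| ≤ A * M := by
    rw [abs_mul, abs_mul, abs_of_nonneg (by linarith : 0 ≤ r ^ 2 / 2 - κ)]
    refine mul_le_mul hp ?_ (mul_nonneg (by linarith) (abs_nonneg _)) hA
    exact (mul_le_mul hκ3 (hSU.trans hU3) (abs_nonneg _) (by positivity)).trans_eq (mul_comm _ _)
  have b1 : |δ ^ 2 - r ^ 2| ≤ M := by
    rw [abs_sub_comm, abs_of_nonneg (sub_nonneg.2 (pow_le_pow_left₀ hδ0 hδ 2))]
    exact hδ23.trans (le_mul_of_one_le_left (by positivity) (one_le_pow₀ hU1))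
  have b2 : |κ ^ 2 * S ^ 2| ≤ M := by
    rw [abs_of_nonneg (by positivity)]
    calc κ ^ 2 * S ^ 2 ≤ (r ^ 2) ^ 2 * U ^ 2 := by
          refine mul_le_mul (pow_le_pow_left₀ hκ0 (by linarith [sq_nonneg r]) 2) ?_
            (sq_nonneg _) (by positivity)
          rw [← sq_abs S]; exact pow_le_pow_left₀ (abs_nonneg _) hSU 2
      _ ≤ r ^ 3 * U ^ 3 := mul_le_mul
          (by rw [← pow_mul]; exact pow_le_pow_of_le_one hr0 hr1 (by norm_num)) hU23
          (sq_nonneg _) (by positivity)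
      _ = M := mul_comm _ _
  have b3 : |2 * κ * δ * (ε * z * S)| ≤ M := by
    rw [abs_mul, abs_mul, abs_mul, abs_mul, abs_mul, hε, abs_of_nonneg hκ0,
      abs_of_nonneg hδ0, abs_two, one_mul]
    calc 2 * κ * δ * (|z| * |S|) ≤ r ^ 2 * r * (U * U) := by
          refine mul_le_mul (mul_le_mul (by linarith) hδ hδ0 (sq_nonneg _))
            (mul_le_mul hzU hSU (abs_nonneg _) hU0) (by positivity) (by positivity)
      _ = r ^ 3 * U ^ 2 := by ring
      _ ≤ _ := by rw [hM, mul_comm (U ^ 3)]; exact mul_le_mul_of_nonneg_left hU23 (by positivity)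
  have a4 : |q / 2 * ((δ ^ 2 - r ^ 2) + κ ^ 2 * S ^ 2 - 2 * κ * δ * (ε * z * S))| ≤
      A / 2 * (3 * M) := by
    rw [abs_mul, abs_div, abs_two]
    refine mul_le_mul (by linarith) ((abs_sub _ _).trans ?_) (abs_nonneg _) (by linarith)
    linarith [abs_add_le (δ ^ 2 - r ^ 2) (κ ^ 2 * S ^ 2)]
  have a5 : A * |-κ * S + ε * (z * δ)| ^ 3 ≤ A * M := by
    rw [hM, ← mul_pow]
    refine mul_le_mul_of_nonneg_left (pow_le_pow_left₀ (abs_nonneg _) ?_ 3) hA
    refine (abs_add_le _ _).trans ?_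
    rw [abs_mul, abs_neg, abs_of_nonneg hκ0, abs_mul, hε, one_mul, abs_mul, abs_of_nonneg hδ0]
    have h6 : κ ≤ r := hκ.trans (by nlinarith)
    have := mul_le_mul_of_nonneg_right h6 (abs_nonneg S)
    have := mul_le_mul_of_nonneg_left hδ (abs_nonneg z)
    have := mul_le_mul_of_nonneg_right hzS hr0
    linarith
  have e : p * (-κ * S + ε * (z * δ)) + q * (-κ * S + ε * (z * δ)) ^ 2 / 2 =
      ε * (z * p * r) + (q - cl * p) * (r ^ 2 / 2) + q * (z ^ 2 - 1) * (δ ^ 2 / 2) +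
        (p * (ε * z * (δ - r)) + p * ((cl - S) * (r ^ 2 / 2)) + p * ((r ^ 2 / 2 - κ) * S) +
          q / 2 * ((δ ^ 2 - r ^ 2) + κ ^ 2 * S ^ 2 - 2 * κ * δ * (ε * z * S))) := by
    linear_combination (q * z ^ 2 * δ ^ 2 / 2) * hε2
  have := abs_le.1 a1
  have := abs_le.1 a2
  have := abs_le.1 a3
  have := abs_le.1 a4
  have h0 : 0 ≤ A * M := by positivity
  rw [show 5 * A * U ^ 3 * r ^ 3 = 5 * (A * M) by ring, e]
  linarith

/-- The expansion of one pattern. -/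
lemma site_term (hN : 0 < N) (hf : Smooth f A) (S z : ℝ) (e : Bool) :
    sgn e * (z * deriv f S / Real.sqrt N) +
          (deriv (deriv f) S - clampT T S * deriv f S) / (2 * N) +
        deriv (deriv f) S * (z ^ 2 - 1) / (2 * (N + 1)) - qTerm A T N S z ≤
      f (Real.sqrt (N / (N + 1 : ℝ)) * S + sgn e * (z / Real.sqrt (N + 1 : ℝ))) - f S := by
  obtain ⟨hκ0, hκ, hκ3, hδ0, hδ, hδ3, hδ23, hr1, hr0, hr2, hδ2⟩ :=
    coef_bounds hN rfl rfl rfl
  have hε : |sgn e| = 1 := by cases e <;> simp [sgn]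
  have hb := expand_bound (A := A) (p := deriv f S) (q := deriv (deriv f) S) (cl := clampT T S)
    (S := S) (z := z) (U := 1 + |z| + |S|) (Smooth.A_nonneg hf) (hf.b1 S) (hf.b2 S) hε hκ0 hκ hκ3
    hδ0 hδ hδ3 hδ23 hr1 (by linarith [abs_nonneg z, abs_nonneg S]) (by linarith)
  have ht := taylor_two hf S
    (-(1 - Real.sqrt (N / (N + 1 : ℝ))) * S + sgn e * (z * (1 / Real.sqrt (N + 1 : ℝ))))
  rw [hr2, hδ2] at hb
  rw [show Real.sqrt (N / (N + 1 : ℝ)) * S + sgn e * (z / Real.sqrt (N + 1 : ℝ)) =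
    S + (-(1 - Real.sqrt (N / (N + 1 : ℝ))) * S + sgn e * (z * (1 / Real.sqrt (N + 1 : ℝ))))
    by ring]
  have e1 : ∀ a : ℝ, a * (1 / (N : ℝ) / 2) = a / (2 * N) := fun a => by ring
  have e2 : ∀ a : ℝ, a * (1 / (N + 1 : ℝ) / 2) = a / (2 * (N + 1)) := fun a => by
    rw [div_div, mul_one_div, mul_comm (2 : ℝ)]
  rw [e1, e1, e2, show z * deriv f S * (1 / Real.sqrt N) = z * deriv f S / Real.sqrt N by ring] at hb
  unfold qTerm
  linarith

/-- The remainder at one configuration. -/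
def rem (f : ℝ → ℝ) (A T : ℝ) (g : Fin n → Fin N → ℝ) (z : Fin n → ℝ) (σ : Cube N) : ℝ :=
  (∑ a, deriv (deriv f) (dot (g a) (unitVec σ)) * (z a ^ 2 - 1)) / (2 * (N + 1)) -
    ∑ a, qTerm A T N (dot (g a) (unitVec σ)) (z a)

lemma dot_snoc (g : Fin N → ℝ) (z : ℝ) (σ : Cube N) (e : Bool) :
    dot (Fin.snoc g z : Fin (N + 1) → ℝ) (unitVec (Fin.snoc σ e : Cube (N + 1))) =
      Real.sqrt (N / (N + 1 : ℝ)) * dot g (unitVec σ) +
        sgn e * (z / Real.sqrt (N + 1 : ℝ)) := by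
  have h : dropLast (Fin.snoc σ e : Cube (N + 1)) = σ := by
    funext i; simp [dropLast]
  simp only [dot, Fin.sum_univ_castSucc, Fin.snoc_castSucc, Fin.snoc_last, unitVec_castSucc, h]
  rw [Finset.mul_sum]
  congr 1
  · exact Finset.sum_congr rfl fun i _ => by ring
  · simp only [unitVec, sv, sgn, Fin.snoc_last, Nat.cast_add, Nat.cast_one]
    ring

/-- The Hamiltonian of the larger system with the smaller perturbation. -/
def siteH (f : ℝ → ℝ) (s : ℝ) (x : Fin L → ℝ) (b : Base N L n) (z : Fin n → ℝ)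
    (σ : Cube (N + 1)) : ℝ :=
  patH f (snocPat b.1 z) σ + pertH s x b.2 (dropLast σ)

lemma sum_cube_succ (F : Cube (N + 1) → ℝ) :
    ∑ σ, F σ = ∑ σ : Cube N, ∑ e : Bool, F (Fin.snoc σ e) := by
  rw [← Equiv.sum_comp (Fin.snocEquiv fun _ : Fin (N + 1) => Bool) F, Fintype.sum_prod_type,
    Finset.sum_comm]
  rfl

lemma logZ_sub_eq {X : Type*} [Fintype X] [Nonempty X] (H : X → ℝ) {K : ℝ} {F : X → ℝ}
    (hK : K = ∑ y, Real.exp (H y) * F y) (hF : ∀ y, 0 < F y) :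
    Real.log K - logZ H = Real.log (gav H F) := by
  have h2 : 0 < ∑ y, Real.exp (H y) := Finset.sum_pos (fun y _ => Real.exp_pos _)
    Finset.univ_nonempty
  have h1 : 0 < K := hK ▸ Finset.sum_pos (fun y _ => mul_pos (Real.exp_pos _) (hF y))
    Finset.univ_nonempty
  rw [logZ, ← Real.log_div h1.ne' h2.ne', hK, gav, Finset.sum_div]
  congr 1
  exact Finset.sum_congr rfl fun y _ => by rw [gw]; ring

/-- Jensen under a tilt. -/
lemma gav_exp_lower {X : Type*} [Fintype X] [Inhabited X] (H F ρ : X → ℝ) (hF : ∀ y, 0 < F y) :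
    Real.log (gav H F) + gav H (fun y => F y * ρ y) / gav H F ≤
      Real.log (gav H fun y => F y * Real.exp (ρ y)) := by
  have h0 : 0 < gav H F := Finset.sum_pos (fun y _ =>
    mul_pos (Vale.Agent.P168.Limit.gw_pos H y) (hF y)) Finset.univ_nonempty
  set m := gav H (fun y => F y * ρ y) / gav H F with hm
  have h1 : gav H F * Real.exp m ≤ gav H fun y => F y * Real.exp (ρ y) := by
    have hp : ∀ y, Real.exp m * (F y * (1 + (ρ y - m))) ≤ F y * Real.exp (ρ y) := fun y => by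
      rw [show ρ y = m + (ρ y - m) by ring, Real.exp_add, mul_left_comm (F y),
        show m + (ρ y - m) - m = ρ y - m by ring]
      refine mul_le_mul_of_nonneg_left (mul_le_mul_of_nonneg_left ?_ (hF y).le) (Real.exp_pos _).le
      linarith [Real.add_one_le_exp (ρ y - m)]
    refine le_of_eq_of_le ?_ (Vale.Agent.P168.Limit.gav_mono H hp)
    have e : (fun y => Real.exp m * (F y * (1 + (ρ y - m)))) =
        fun y => Real.exp m * ((1 - m) * F y + F y * ρ y) := funext fun y => by ring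
    rw [e, Vale.Agent.P168.Limit.gav_const_mul, Vale.Agent.P168.Limit.gav_add,
      Vale.Agent.P168.Limit.gav_const_mul, show gav H (fun y => F y * ρ y) = m * gav H F by
        rw [hm, div_mul_cancel₀ _ h0.ne']]
    ring
  rw [← Real.log_exp m, ← Real.log_mul h0.ne' (Real.exp_pos _).ne']
  exact Real.log_le_log (mul_pos h0 (Real.exp_pos _)) h1

/-- The pointwise cavity bound. -/
theorem site_pointwise (hN : 0 < N) (hf : Smooth f A) (hT : 0 ≤ T) {η : ℝ} (hη : 0 < η)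
    (b : Base N L n) (z : Fin n → ℝ) :
    cavInt f T s x b z - Real.exp (2 * n * bCav A T N) / 2 *
        gav (ham f s x b) (fun σ => η * Real.cosh (2 * cY f b.1 z σ) +
          rem f A T b.1 z σ ^ 2 / η) ≤
      logZ (siteH f s x b z) - logZ (ham f s x b) - Real.log 2 := by
  set H := ham f s x b with hH
  set D : Cube N → Bool → ℝ := fun σ e =>
    ∑ a, (f (dot (snocPat b.1 z a) (unitVec (Fin.snoc σ e : Cube (N + 1)))) -
      f (dot (b.1 a) (unitVec σ))) with hD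
  set X : Cube N → ℝ := fun σ => Real.cosh (cY f b.1 z σ) * Real.exp (cB f T b.1 σ) with hX
  set ρ : Cube N → ℝ := rem f A T b.1 z with hρ
  have hlow : ∀ σ, X σ * Real.exp (ρ σ) ≤ (∑ e, Real.exp (D σ e)) / 2 := by
    intro σ
    have hb : ∀ e, sgn e * cY f b.1 z σ + cB f T b.1 σ + ρ σ ≤ D σ e := by
      intro e
      refine le_of_eq_of_le ?_ (Finset.sum_le_sum fun a _ =>
        (site_term (T := T) hN hf (dot (b.1 a) (unitVec σ)) (z a) e).trans_eq
          (by rw [snocPat, dot_snoc]))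
      rw [Finset.sum_sub_distrib, Finset.sum_add_distrib, Finset.sum_add_distrib, ← Finset.mul_sum,
        ← Finset.sum_div, ← Finset.sum_div, ← Finset.sum_div]
      simp only [cY, cB, hρ, rem]
      ring
    have h1 := Real.exp_le_exp.2 (hb true)
    have h2 := Real.exp_le_exp.2 (hb false)
    simp only [sgn, if_true, Bool.false_eq_true, if_false, one_mul, neg_one_mul] at h1 h2
    rw [Fintype.sum_bool]
    simp only [hX, Real.cosh_eq]
    simp only [Real.exp_add] at h1 h2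
    have e : (Real.exp (cY f b.1 z σ) + Real.exp (-cY f b.1 z σ)) / 2 * Real.exp (cB f T b.1 σ) *
        Real.exp (ρ σ) = (Real.exp (cY f b.1 z σ) * Real.exp (cB f T b.1 σ) * Real.exp (ρ σ) +
          Real.exp (-cY f b.1 z σ) * Real.exp (cB f T b.1 σ) * Real.exp (ρ σ)) / 2 := by ring
    rw [e]
    linarith
  have hXpos : ∀ σ, 0 < X σ := fun σ => mul_pos (Real.cosh_pos _) (Real.exp_pos _)
  have hpe : ∀ σ, 0 < X σ * Real.exp (ρ σ) := fun σ => mul_pos (hXpos σ) (Real.exp_pos _)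
  have hdiff : logZ (siteH f s x b z) - logZ H - Real.log 2 =
      Real.log (gav H fun σ => (∑ e, Real.exp (D σ e)) / 2) := by
    rw [← logZ_sub_eq (H := H) (K := (∑ σ, Real.exp (siteH f s x b z σ)) / 2)
      (F := fun σ => (∑ e, Real.exp (D σ e)) / 2) ?_ fun σ => (hpe σ).trans_le (hlow σ)]
    · rw [Real.log_div (Vale.Agent.P168.Limit.sum_exp_pos _).ne' two_ne_zero, logZ]
      ring
    · rw [sum_cube_succ, Finset.sum_div]
      refine Finset.sum_congr rfl fun σ _ => ?_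
      rw [mul_div_assoc', Finset.mul_sum]
      congr 1
      refine Finset.sum_congr rfl fun e _ => ?_
      rw [← Real.exp_add]
      have h : dropLast (Fin.snoc σ e : Cube (N + 1)) = σ := by
        funext i; simp [dropLast]
      simp only [siteH, hH, ham, patH, hD, h, Finset.sum_sub_distrib]
      ring_nf
  rw [hdiff]
  have hmono : Real.log (gav H fun σ => X σ * Real.exp (ρ σ)) ≤
      Real.log (gav H fun σ => (∑ e, Real.exp (D σ e)) / 2) :=
    Real.log_le_log (Finset.sum_pos (fun σ _ =>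
      mul_pos (Vale.Agent.P168.Limit.gw_pos H σ) (hpe σ)) Finset.univ_nonempty)
      (Vale.Agent.P168.Limit.gav_mono H hlow)
  refine le_trans ?_ ((gav_exp_lower H X ρ hXpos).trans hmono)
  show Real.log (gav H X) - _ ≤ _
  set E := Real.exp (n * bCav A T N) with hE
  have hEp : 0 < E := Real.exp_pos _
  have hB : ∀ σ, Real.exp (-(n * bCav A T N)) ≤ Real.exp (cB f T b.1 σ) ∧
      Real.exp (cB f T b.1 σ) ≤ E := fun σ =>
    ⟨Real.exp_le_exp.2 (abs_le.1 (abs_cB_le hf hT b.1 σ)).1,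
      Real.exp_le_exp.2 (abs_le.1 (abs_cB_le hf hT b.1 σ)).2⟩
  have hden : 1 / E ≤ gav H X := by
    rw [hE, one_div, ← Real.exp_neg, ← Vale.Agent.P168.Limit.gav_const H (Real.exp (-_))]
    exact Vale.Agent.P168.Limit.gav_mono H fun σ =>
      (hB σ).1.trans (le_mul_of_one_le_left (Real.exp_pos _).le (Real.one_le_cosh _))
  have hgp : 0 < gav H X := (one_div_pos.2 hEp).trans_le hden
  have hnum : |gav H fun σ => X σ * ρ σ| ≤
      E / 2 * gav H (fun σ => η * Real.cosh (2 * cY f b.1 z σ) + ρ σ ^ 2 / η) := by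
    rw [← Vale.Agent.P168.Limit.gav_const_mul]
    refine (Vale.Agent.P168.Limit.abs_gav_le _ _).trans
      (Vale.Agent.P168.Limit.gav_mono H fun σ => ?_)
    rw [abs_mul, abs_of_pos (hXpos σ), hX]
    calc Real.cosh (cY f b.1 z σ) * Real.exp (cB f T b.1 σ) * |ρ σ|
        ≤ Real.cosh (cY f b.1 z σ) * E * |ρ σ| := by
          refine mul_le_mul_of_nonneg_right ?_ (abs_nonneg _)
          exact mul_le_mul_of_nonneg_left (hB σ).2 (Real.cosh_pos _).le
      _ = E / 2 * (2 * Real.cosh (cY f b.1 z σ) * |ρ σ|) := by ring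
      _ ≤ _ := by
          refine mul_le_mul_of_nonneg_left ?_ (by positivity)
          have h2 : Real.cosh (cY f b.1 z σ) ^ 2 ≤ Real.cosh (2 * cY f b.1 z σ) := by
            rw [Real.cosh_two_mul]; nlinarith [sq_nonneg (Real.sinh (cY f b.1 z σ))]
          have h3 : η * (ρ σ ^ 2 / η) = |ρ σ| ^ 2 := by rw [sq_abs]; field_simp
          have h5 : 0 ≤ (η * Real.cosh (cY f b.1 z σ) - |ρ σ|) ^ 2 / η := by positivity
          have h6 : (η * Real.cosh (cY f b.1 z σ) - |ρ σ|) ^ 2 / η =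
              η * Real.cosh (cY f b.1 z σ) ^ 2 - 2 * Real.cosh (cY f b.1 z σ) * |ρ σ| +
                ρ σ ^ 2 / η := by
            field_simp; rw [sub_sq, mul_pow, sq_abs]; ring
          nlinarith [mul_le_mul_of_nonneg_left h2 hη.le]
  have hq : -(gav H fun σ => X σ * ρ σ) / gav H X ≤
      E * (E / 2 * gav H fun σ => η * Real.cosh (2 * cY f b.1 z σ) + ρ σ ^ 2 / η) := by
    rw [div_le_iff₀ hgp]
    refine ((neg_le_abs _).trans hnum).trans ?_
    have h : 1 ≤ E * gav H X := by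
      rw [div_le_iff₀ hEp] at hden; linarith
    have h0 : 0 ≤ E / 2 * gav H fun σ => η * Real.cosh (2 * cY f b.1 z σ) + ρ σ ^ 2 / η :=
      (abs_nonneg _).trans hnum
    calc _ ≤ (E / 2 * gav H fun σ => η * Real.cosh (2 * cY f b.1 z σ) + ρ σ ^ 2 / η) *
          (E * gav H X) := le_mul_of_one_le_right h0 h
      _ = _ := by ring
  have hEE : Real.exp (2 * n * bCav A T N) = E * E := by rw [hE, ← Real.exp_add]; ring_nf
  rw [hEE, neg_div] at *
  linarith

end Vale.Agent.P157.Parisi.Cavity
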