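import Vale.Agent.P157.Parisi.Cavity.Expand
import Vale.Agent.P157.Parisi.Cavity.Change

/-!
The expected error of the cavity expansion at a given number of patterns.
-/

noncomputable section

open MeasureTheory ProbabilityTheory
open scoped BigOperators

namespace Vale.Agent.P157.Parisi.Cavity

open Vale.Agent.P168.Limit (logZ gw gav)
open Vale.Agent.P168.Toolkit (integrable_exp_linear integral_exp_linear)

variable {N L n : ℕ} {f : ℝ → ℝ} {A s T : ℝ} {x : Fin L → ℝ}

/-- `E (G² - 1)²`. -/
def m₄ : ℝ := ∫ y, (y ^ 2 - 1) ^ 2 ∂gaussianReal 0 1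

/-- `E G⁶`. -/
def m₆ : ℝ := ∫ y, y ^ 6 ∂gaussianReal 0 1

/-- The tail moment. -/
def tail (T : ℝ) : ℝ := ∫ y, (y - clampT T y) ^ 2 ∂gaussianReal 0 1

lemma continuous_clampT : Continuous (clampT T) := by unfold clampT; fun_prop

lemma integrable_tail (hT : 0 ≤ T) :
    Integrable (fun y => (y - clampT T y) ^ 2) (gaussianReal 0 1) := by
  refine ((integrable_exp_abs (0 + 1)).const_mul (2 * Real.exp (-0 * T))).mono'
    ((continuous_id.sub continuous_clampT).pow 2).aestronglyMeasurable (ae_of_all _ fun y => ?_)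
  rw [Real.norm_eq_abs, abs_of_nonneg (sq_nonneg _)]
  exact sq_sub_clamp_le hT le_rfl y

lemma tail_le (hT : 0 ≤ T) {k : ℝ} (hk : 0 ≤ k) :
    tail T ≤ 2 * Real.exp (-k * T) * ∫ y, Real.exp ((k + 1) * |y|) ∂gaussianReal 0 1 := by
  rw [tail, ← integral_const_mul]
  exact integral_mono (integrable_tail hT) ((integrable_exp_abs _).const_mul _)
    (sq_sub_clamp_le hT hk)

lemma integrable_m₄ : Integrable (fun y : ℝ => (y ^ 2 - 1) ^ 2) (gaussianReal 0 1) := by
  refine ((integrable_const (3 : ℝ)).add (integrable_pow_six.const_mul 3)).mono' (by fun_prop)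
    (ae_of_all _ fun y => ?_)
  rw [Real.norm_eq_abs, abs_of_nonneg (sq_nonneg _), Pi.add_apply]
  have h4 : y ^ 4 ≤ 1 + y ^ 6 := by
    rcases le_total (y ^ 2) 1 with h | h
    · nlinarith [pow_nonneg (sq_nonneg y) 3, sq_nonneg y]
    · nlinarith [mul_le_mul_of_nonneg_left h (sq_nonneg (y ^ 2))]
  nlinarith [sq_nonneg y]

lemma m₄_nonneg : 0 ≤ m₄ := integral_nonneg fun _ => sq_nonneg _

lemma m₆_nonneg : 0 ≤ m₆ := integral_nonneg fun y => by positivity

lemma ham_split (a : Fin (n + 1)) (b : Base N L (n + 1)) (σ : Cube N) :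
    ham f s x b σ = f (dot (b.1 a) (unitVec σ)) +
      ham f s x ((fun j => b.1 (a.succAbove j), b.2) : Base N L n) σ := by
  simp only [ham, patH, Fin.sum_univ_succAbove _ a]
  ring

lemma gw_le_exp_mul {X : Type*} [Fintype X] [Nonempty X] (H δ : X → ℝ) {c : ℝ}
    (h : ∀ y, |δ y| ≤ c) (y : X) : gw (fun y => δ y + H y) y ≤ Real.exp (2 * c) * gw H y := by
  have h0 : 0 < ∑ y, Real.exp (H y) := Finset.sum_pos (fun y _ => Real.exp_pos _)
    Finset.univ_nonempty
  have hden : Real.exp (-c) * ∑ y, Real.exp (H y) ≤ ∑ y, Real.exp (δ y + H y) := by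
    rw [Finset.mul_sum]
    exact Finset.sum_le_sum fun y _ => by
      rw [← Real.exp_add]; exact Real.exp_le_exp.2 (by linarith [(abs_le.1 (h y)).1])
  calc Real.exp (δ y + H y) / ∑ y, Real.exp (δ y + H y)
      ≤ Real.exp (c + H y) / (Real.exp (-c) * ∑ y, Real.exp (H y)) :=
        div_le_div₀ (Real.exp_pos _).le (Real.exp_le_exp.2 (by linarith [(abs_le.1 (h y)).2]))
          (mul_pos (Real.exp_pos _) h0) hden
    _ = Real.exp (2 * c) * gw H y := by
        rw [Real.exp_add, Real.exp_neg, two_mul, Real.exp_add, gw]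
        field_simp

/-- An observable of one pattern under the Gibbs mean. -/
def patObs (φ : ℝ → ℝ) (f : ℝ → ℝ) (s : ℝ) (x : Fin L → ℝ) (a : Fin n) (b : Base N L n) : ℝ :=
  gav (ham f s x b) fun σ => φ (dot (b.1 a) (unitVec σ))

lemma measurable_gw_ham (hf : Smooth f A) (σ : Cube N) :
    Measurable fun b : Base N L n => gw (ham f s x b) σ :=
  (measurable_ham hf σ).exp.div (Finset.measurable_sum _ fun τ _ => (measurable_ham hf τ).exp)

lemma integrable_patObs (hN : 0 < N) (hf : Smooth f A) {φ : ℝ → ℝ}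
    (hφ : Integrable φ (gaussianReal 0 1)) (a : Fin n) :
    Integrable (patObs φ f s x a : Base N L n → ℝ) (baseLaw N L n) := by
  refine integrable_finsetSum _ fun σ _ => ?_
  refine Integrable.bdd_mul (c := 1) ?_ (measurable_gw_ham hf σ).aestronglyMeasurable
    (ae_of_all _ fun b => ?_)
  · exact ((measurePreserving_eval (fun _ : Fin n => gam (Fin N)) a).integrable_comp_of_integrable
      (integrable_dot_unit (sum_unitVec_sq hN σ) hφ)).comp_fst _
  · rw [Real.norm_eq_abs, abs_of_nonneg (Vale.Agent.P168.Limit.gw_nonneg _ _)]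
    exact Vale.Agent.P168.Limit.gw_le_one _ _

/-- Under the Gibbs mean a pattern is Gaussian up to `exp (2 A)`. -/
theorem integral_patObs_le (hN : 0 < N) (hf : Smooth f A) {φ : ℝ → ℝ} (hφm : Measurable φ)
    (hφ : Integrable φ (gaussianReal 0 1)) (hφ0 : ∀ y, 0 ≤ φ y) (a : Fin n) :
    ∫ b : Base N L n, patObs φ f s x a b ∂baseLaw N L n ≤
      Real.exp (2 * A) * ∫ y, φ y ∂gaussianReal 0 1 := by
  obtain _ | m := n
  · exact a.elim0
  set e := MeasurableEquiv.piFinSuccAbove (fun _ : Fin (m + 1) => Fin N → ℝ) a with he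
  have hmp : MeasurePreserving
      (fun b : Base N L (m + 1) => ((b.1 a, ((fun j => b.1 (a.succAbove j), b.2) : Base N L m)) :
        (Fin N → ℝ) × Base N L m))
      (baseLaw N L (m + 1)) ((gam (Fin N)).prod (baseLaw N L m)) := by
    have h1 := (measurePreserving_piFinSuccAbove (fun _ : Fin (m + 1) => gam (Fin N)) a).prod
      (MeasurePreserving.id (gam (PertIdx N L)))
    have h2 := measurePreserving_prodAssoc (gam (Fin N)) (Measure.pi fun _ : Fin m => gam (Fin N))
      (gam (PertIdx N L))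
    exact h2.comp h1
  set Ψ : (Fin N → ℝ) × Base N L m → ℝ := fun p =>
    ∑ σ : Cube N, gw (ham f s x p.2) σ * φ (dot p.1 (unitVec σ)) with hΨ
  have hle : ∀ b : Base N L (m + 1), patObs φ f s x a b ≤
      Real.exp (2 * A) * Ψ (b.1 a, ((fun j => b.1 (a.succAbove j), b.2) : Base N L m)) := by
    intro b
    rw [patObs, gav, hΨ, Finset.mul_sum]
    refine Finset.sum_le_sum fun σ _ => ?_
    rw [← mul_assoc, show ham f s x b = fun σ => f (dot (b.1 a) (unitVec σ)) +
      ham f s x ((fun j => b.1 (a.succAbove j), b.2) : Base N L m) σ from funext (ham_split a b)]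
    exact mul_le_mul_of_nonneg_right (gw_le_exp_mul _ _ (fun _ => hf.b0 _) σ) (hφ0 _)
  have hterm : ∀ σ : Cube N, Integrable (fun p : (Fin N → ℝ) × Base N L m =>
      gw (ham f s x p.2) σ * φ (dot p.1 (unitVec σ))) ((gam (Fin N)).prod (baseLaw N L m)) := by
    intro σ
    refine Integrable.bdd_mul (c := 1) ((integrable_dot_unit (sum_unitVec_sq hN σ) hφ).comp_fst _)
      ((measurable_gw_ham hf σ).comp measurable_snd).aestronglyMeasurable (ae_of_all _ fun p => ?_)
    rw [Real.norm_eq_abs, abs_of_nonneg (Vale.Agent.P168.Limit.gw_nonneg _ _)]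
    exact Vale.Agent.P168.Limit.gw_le_one _ _
  have hΨi : Integrable Ψ ((gam (Fin N)).prod (baseLaw N L m)) :=
    integrable_finsetSum _ fun σ _ => hterm σ
  have hΨe : ∫ p, Ψ p ∂((gam (Fin N)).prod (baseLaw N L m)) = ∫ y, φ y ∂gaussianReal 0 1 := by
    rw [integral_prod_symm _ hΨi]
    have : ∀ b : Base N L m, ∫ y, Ψ (y, b) ∂gam (Fin N) = ∫ y, φ y ∂gaussianReal 0 1 := by
      intro b
      simp only [hΨ]
      rw [integral_finsetSum _ fun σ _ =>
        (integrable_dot_unit (sum_unitVec_sq hN σ) hφ).const_mul _]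
      simp only [integral_const_mul, integral_dot_unit (sum_unitVec_sq hN _) hφm]
      rw [← Finset.sum_mul, Vale.Agent.P168.Limit.sum_gw, one_mul]
    simp only [this, integral_const, probReal_univ, one_smul]
  refine (integral_mono (integrable_patObs hN hf hφ a) ((hmp.integrable_comp_of_integrable
    hΨi).const_mul (Real.exp (2 * A))) hle).trans_eq ?_
  rw [integral_const_mul, ← hΨe]
  congr 1
  rw [← hmp.map_eq, integral_map hmp.measurable.aemeasurable
    (by rw [hmp.map_eq]; exact hΨi.aestronglyMeasurable)]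
  rfl

/-- The majorant of the squared remainder. -/
def remBound (f : ℝ → ℝ) (A T : ℝ) (g : Fin n → Fin N → ℝ) (z : Fin n → ℝ) (σ : Cube N) : ℝ :=
  (∑ a, deriv (deriv f) (dot (g a) (unitVec σ)) * (z a ^ 2 - 1)) ^ 2 / (2 * (N + 1 : ℝ) ^ 2) +
    n * A ^ 2 / N ^ 2 * ∑ a, (24300 / N * (1 + z a ^ 6 + dot (g a) (unitVec σ) ^ 6) +
      (dot (g a) (unitVec σ) - clampT T (dot (g a) (unitVec σ))) ^ 2)

lemma pow_six_le (a b : ℝ) : (1 + |a| + |b|) ^ 6 ≤ 243 * (1 + a ^ 6 + b ^ 6) := by
  have h := pow_sum_le_card_mul_sum_pow (s := Finset.univ) (f := ![(1 : ℝ), |a|, |b|])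
    (fun i _ => by fin_cases i <;> simp) 5
  have he : ∀ y : ℝ, |y| ^ 6 = y ^ 6 := fun y => Even.pow_abs (by decide) y
  simp [Fin.sum_univ_three, he] at h
  norm_num at h ⊢
  exact h

lemma qTerm_sq_le (hN : 0 < N) (S z : ℝ) :
    2 * qTerm A T N S z ^ 2 ≤ A ^ 2 / N ^ 2 *
      (24300 / N * (1 + z ^ 6 + S ^ 6) + (S - clampT T S) ^ 2) := by
  have hN0 : (0 : ℝ) < N := Nat.cast_pos.2 hN
  have hr : ((1 / Real.sqrt N) ^ 3) ^ 2 = 1 / (N : ℝ) ^ 3 := by
    rw [← pow_mul, mul_comm 3 2, pow_mul, div_pow, Real.sq_sqrt hN0.le, one_pow, div_pow, one_pow]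
  rw [qTerm]
  refine (mul_le_mul_of_nonneg_left (add_sq_le) two_pos.le).trans ?_
  simp only [mul_pow, div_pow, one_pow] at hr ⊢
  rw [hr, sq_abs, ← pow_mul (1 + |z| + |S|)]
  have h6 : (5 * A) ^ 2 * (1 + |z| + |S|) ^ (3 * 2) * (1 / (N : ℝ) ^ 3) ≤
      (5 * A) ^ 2 * (243 * (1 + z ^ 6 + S ^ 6)) * (1 / (N : ℝ) ^ 3) := by
    refine mul_le_mul_of_nonneg_right (mul_le_mul_of_nonneg_left (pow_six_le z S) (sq_nonneg _)) ?_
    positivity
  have e : A ^ 2 / (N : ℝ) ^ 2 * (24300 / N * (1 + z ^ 6 + S ^ 6) + (S - clampT T S) ^ 2) =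
      2 * (2 * ((5 * A) ^ 2 * (243 * (1 + z ^ 6 + S ^ 6)) * (1 / (N : ℝ) ^ 3) +
        A ^ 2 * (S - clampT T S) ^ 2 / (2 * N) ^ 2)) := by
    field_simp
    ring
  rw [e]
  simp only [mul_pow] at h6 ⊢
  linarith

lemma rem_sq_le (hN : 0 < N) (g : Fin n → Fin N → ℝ) (z : Fin n → ℝ) (σ : Cube N) :
    rem f A T g z σ ^ 2 ≤ remBound f A T g z σ := by
  rw [rem, remBound, sub_eq_add_neg]
  refine add_sq_le.trans ?_
  rw [mul_add, neg_sq]
  refine add_le_add (le_of_eq ?_) ?_
  · rw [div_pow]; field_simp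
  · refine (mul_le_mul_of_nonneg_left
      (sq_sum_le_card_mul_sum_sq (s := (Finset.univ : Finset (Fin n)))) two_pos.le).trans ?_
    rw [Finset.card_univ, Fintype.card_fin, Finset.mul_sum, Finset.mul_sum, Finset.mul_sum]
    refine Finset.sum_le_sum fun a _ => ?_
    have := mul_le_mul_of_nonneg_left
      (qTerm_sq_le (A := A) (T := T) hN (dot (g a) (unitVec σ)) (z a)) (Nat.cast_nonneg (α := ℝ) n)
    exact (le_of_eq (by ring)).trans (this.trans_eq (by ring))

lemma integrable_coord_six (a : Fin n) :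
    Integrable (fun z : Fin n → ℝ => z a ^ 6) (gam (Fin n)) :=
  (measurePreserving_eval (fun _ : Fin n => gaussianReal 0 1) a).integrable_comp_of_integrable
    integrable_pow_six

lemma memLp_centred_sq (c : ℝ) :
    MemLp (fun y : ℝ => c * (y ^ 2 - 1)) 2 (gaussianReal 0 1) :=
  ((memLp_two_iff_integrable_sq (by fun_prop)).2 integrable_m₄).const_mul c

lemma integral_centred_sum_sq (c : Fin n → ℝ) :
    Integrable (fun z : Fin n → ℝ => (∑ a, c a * (z a ^ 2 - 1)) ^ 2) (gam (Fin n)) ∧
      ∫ z, (∑ a, c a * (z a ^ 2 - 1)) ^ 2 ∂gam (Fin n) = (∑ a, c a ^ 2) * m₄ := by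
  have hL : MemLp (fun z : Fin n → ℝ => ∑ a, c a * (z a ^ 2 - 1)) 2 (gam (Fin n)) :=
    memLp_finsetSum _ fun a _ => (memLp_centred_sq (c a)).comp_measurePreserving
      (measurePreserving_eval (fun _ : Fin n => gaussianReal 0 1) a)
  refine ⟨hL.integrable_sq, ?_⟩
  have hi : Integrable (fun y : ℝ => y ^ 2 - 1) (gaussianReal 0 1) :=
    Vale.Agent.P168.Toolkit.integrable_gauss_sq.sub (integrable_const _)
  have h0 : ∫ y, (y ^ 2 - 1) ∂gaussianReal 0 1 = 0 := by
    rw [integral_sub Vale.Agent.P168.Toolkit.integrable_gauss_sq (integrable_const _),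
      Vale.Agent.P168.Toolkit.integral_gauss_sq]
    simp
  have hz : ∫ z, (∑ a, c a * (z a ^ 2 - 1)) ∂gam (Fin n) = 0 := by
    have hj : ∀ a, Integrable (fun z : Fin n → ℝ => c a * (z a ^ 2 - 1)) (gam (Fin n)) := fun a =>
      ((measurePreserving_eval
        (fun _ : Fin n => gaussianReal 0 1) a).integrable_comp_of_integrable hi).const_mul (c a)
    rw [integral_finsetSum _ fun a _ => hj a]
    refine Finset.sum_eq_zero fun a _ => ?_
    rw [integral_const_mul, integral_comp_eval (μ := fun _ : Fin n => gaussianReal 0 1)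
      (f := fun y : ℝ => y ^ 2 - 1) (by fun_prop), h0, mul_zero]
  have hv : ∀ a, variance (fun y : ℝ => c a * (y ^ 2 - 1)) (gaussianReal 0 1) = c a ^ 2 * m₄ := by
    intro a
    rw [variance_of_integral_eq_zero (by fun_prop) (by rw [integral_const_mul, h0, mul_zero]),
      m₄, ← integral_const_mul]
    simp only [mul_pow]
  have h := variance_sum_pi (μ := fun _ : Fin n => gaussianReal 0 1)
    (X := fun a y => c a * (y ^ 2 - 1)) fun a => memLp_centred_sq (c a)
  simp only [hv, ← Finset.sum_mul] at h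
  rw [variance_of_integral_eq_zero (by fun_prop) (by simpa [Finset.sum_apply] using hz)] at h
  simpa [Finset.sum_apply] using h

/-- The error functional. -/
def errF (f : ℝ → ℝ) (A T η s : ℝ) (x : Fin L → ℝ) (b : Base N L n) (z : Fin n → ℝ) : ℝ :=
  gav (ham f s x b) fun σ => η * Real.cosh (2 * cY f b.1 z σ) + rem f A T b.1 z σ ^ 2 / η

/-- Its majorant after integrating the new coordinates. -/
def errB (f : ℝ → ℝ) (A T η s : ℝ) (x : Fin L → ℝ) (b : Base N L n) : ℝ :=
  η * Real.exp (2 * n * A ^ 2 / N) + (n * A ^ 2 * m₄ / (2 * N ^ 2) +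
    n * A ^ 2 / N ^ 2 * ∑ a, (24300 / N * (1 + m₆ + patObs (fun y => y ^ 6) f s x a b) +
      patObs (fun y => (y - clampT T y) ^ 2) f s x a b)) / η

lemma integral_cosh_le (hN : 0 < N) (hf : Smooth f A) (g : Fin n → Fin N → ℝ) (σ : Cube N) :
    Integrable (fun z => Real.cosh (2 * cY f g z σ)) (gam (Fin n)) ∧
      ∫ z, Real.cosh (2 * cY f g z σ) ∂gam (Fin n) ≤ Real.exp (2 * n * A ^ 2 / N) := by
  set c : Fin n → ℝ := fun a => 2 * deriv f (dot (g a) (unitVec σ)) / Real.sqrt N with hc
  have e : ∀ z, 2 * cY f g z σ = ∑ a, c a * z a := fun z => by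
    rw [cY, mul_div_assoc', Finset.mul_sum, Finset.sum_div]
    exact Finset.sum_congr rfl fun a _ => by rw [hc]; ring
  have e' : ∀ z : Fin n → ℝ, -(∑ a, c a * z a) = ∑ a, (-c) a * z a := fun z => by
    simp [Finset.sum_neg_distrib]
  simp only [e, Real.cosh_eq, e']
  refine ⟨((integrable_exp_linear c).add (integrable_exp_linear (-c))).div_const 2, ?_⟩
  rw [integral_div, integral_add (integrable_exp_linear c) (integrable_exp_linear (-c)),
    integral_exp_linear, integral_exp_linear]
  have hb : (∑ a, c a ^ 2) / 2 ≤ 2 * n * A ^ 2 / N := by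
    have : ∀ a, c a ^ 2 ≤ 4 * A ^ 2 / N := fun a => by
      rw [hc, div_pow, Real.sq_sqrt N.cast_nonneg, mul_pow]
      norm_num
      gcongr ?_ / _
      refine mul_le_mul_of_nonneg_left ?_ (by norm_num)
      exact sq_le_sq.2 ((hf.b1 _).trans (le_abs_self A))
    have hs : ∑ a, c a ^ 2 ≤ (n : ℝ) * (4 * A ^ 2 / N) :=
      (Finset.sum_le_card_nsmul _ _ _ fun a _ => this a).trans_eq (by simp)
    refine (div_le_div_of_nonneg_right hs two_pos.le).trans_eq ?_
    ring
  have := Real.exp_le_exp.2 hb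
  simp only [Pi.neg_apply, neg_sq]
  linarith

lemma integral_remBound (hN : 0 < N) (hf : Smooth f A) (g : Fin n → Fin N → ℝ) (σ : Cube N) :
    Integrable (fun z => remBound f A T g z σ) (gam (Fin n)) ∧
      ∫ z, remBound f A T g z σ ∂gam (Fin n) ≤ n * A ^ 2 * m₄ / (2 * N ^ 2) +
        n * A ^ 2 / N ^ 2 * ∑ a, (24300 / N * (1 + m₆ + dot (g a) (unitVec σ) ^ 6) +
          (dot (g a) (unitVec σ) - clampT T (dot (g a) (unitVec σ))) ^ 2) := by
  obtain ⟨i1, e1⟩ := integral_centred_sum_sq fun a => deriv (deriv f) (dot (g a) (unitVec σ))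
  have j0 : ∀ a, Integrable
      (fun z : Fin n → ℝ => 1 + z a ^ 6 + dot (g a) (unitVec σ) ^ 6) (gam (Fin n)) := fun a =>
    ((integrable_const _).add (integrable_coord_six a)).add (integrable_const _)
  have j1 : ∀ a, Integrable (fun z : Fin n → ℝ => 24300 / (N : ℝ) *
      (1 + z a ^ 6 + dot (g a) (unitVec σ) ^ 6) +
      (dot (g a) (unitVec σ) - clampT T (dot (g a) (unitVec σ))) ^ 2) (gam (Fin n)) := fun a =>
    ((j0 a).const_mul _).add (integrable_const _)
  have i2 := (integrable_finsetSum (Finset.univ : Finset (Fin n)) fun a _ => j1 a).const_mul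
    ((n : ℝ) * A ^ 2 / N ^ 2)
  refine ⟨(i1.div_const _).add i2, ?_⟩
  unfold remBound
  rw [integral_add (i1.div_const _) i2, integral_div, e1, integral_const_mul,
    integral_finsetSum _ fun a _ => j1 a]
  refine add_le_add ?_ (le_of_eq ?_)
  · have hs : ∑ a, deriv (deriv f) (dot (g a) (unitVec σ)) ^ 2 ≤ n * A ^ 2 :=
      (Finset.sum_le_card_nsmul _ _ (A ^ 2) fun a _ =>
        sq_le_sq.2 ((hf.b2 _).trans (le_abs_self A))).trans_eq (by simp)
    refine div_le_div₀ (mul_nonneg (by positivity) m₄_nonneg)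
      (mul_le_mul_of_nonneg_right hs m₄_nonneg) (by positivity) ?_
    gcongr
    linarith
  · congr 1
    refine Finset.sum_congr rfl fun a _ => ?_
    have hq : Integrable (fun z : Fin n → ℝ => 1 + z a ^ 6) (gam (Fin n)) :=
      (integrable_const _).add (integrable_coord_six a)
    rw [integral_add ((j0 a).const_mul _) (integrable_const _), integral_const_mul,
      integral_add hq (integrable_const _),
      integral_add (integrable_const _) (integrable_coord_six a),
      integral_comp_eval (μ := fun _ : Fin n => gaussianReal 0 1) (f := fun y : ℝ => y ^ 6)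
        (by fun_prop)]
    simp [m₆]

lemma measurable_errF (hf : Smooth f A) (η : ℝ) :
    Measurable fun p : Base N L n × (Fin n → ℝ) => errF f A T η s x p.1 p.2 := by
  have hd1 := hf.d1.continuous.measurable
  have hd2 := hf.d2.continuous.measurable
  have hg : ∀ a σ, Measurable fun p : Base N L n × (Fin n → ℝ) => dot (p.1.1 a) (unitVec σ) :=
    fun a σ => measurable_dot_unit (by fun_prop) σ
  have hz : ∀ a, Measurable fun p : Base N L n × (Fin n → ℝ) => p.2 a := fun a =>
    (measurable_pi_apply a).comp measurable_snd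
  unfold errF gav
  refine Finset.measurable_sum _ fun σ _ => ((measurable_gw_ham hf σ).comp measurable_fst).mul ?_
  unfold cY rem qTerm
  refine ((Real.continuous_cosh.measurable.comp (((Finset.measurable_sum _ fun a _ =>
    (hz a).mul (hd1.comp (hg a σ))).div_const _).const_mul 2)).const_mul η).add
    ((Measurable.pow_const (Measurable.sub ((Finset.measurable_sum _ fun a _ =>
      (hd2.comp (hg a σ)).mul (((hz a).pow_const 2).sub_const 1)).div_const _)
      (Finset.measurable_sum _ fun a _ => ?_)) 2).div_const η)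
  have hc := (continuous_clampT (T := T)).measurable
  exact (((((measurable_const.add (continuous_abs.measurable.comp (hz a))).add
    (continuous_abs.measurable.comp (hg a σ))).pow_const 3).const_mul _).mul_const _).add
      (((continuous_abs.measurable.comp ((hg a σ).sub (hc.comp (hg a σ)))).const_mul A).div_const _)

/-- The error functional at fixed base. -/
theorem errF_inner (hN : 0 < N) (hf : Smooth f A) {η : ℝ} (hη : 0 < η) (b : Base N L n) :
    Integrable (errF f A T η s x b) (gam (Fin n)) ∧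
      ∫ z, errF f A T η s x b z ∂gam (Fin n) ≤ errB f A T η s x b := by
  set G : Cube N → (Fin n → ℝ) → ℝ := fun σ z =>
    η * Real.cosh (2 * cY f b.1 z σ) + remBound f A T b.1 z σ / η with hG
  have hGi : ∀ σ, Integrable (G σ) (gam (Fin n)) := fun σ =>
    ((integral_cosh_le hN hf b.1 σ).1.const_mul η).add
      ((integral_remBound hN hf b.1 σ).1.div_const η)
  have hle : ∀ z, errF f A T η s x b z ≤ ∑ σ, gw (ham f s x b) σ * G σ z := fun z =>
    Vale.Agent.P168.Limit.gav_mono _ fun σ =>
      add_le_add le_rfl (div_le_div_of_nonneg_right (rem_sq_le hN _ _ _) hη.le)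
  have h0 : ∀ z, 0 ≤ errF f A T η s x b z := fun z => Finset.sum_nonneg fun σ _ =>
    mul_nonneg (Vale.Agent.P168.Limit.gw_nonneg _ _) (add_nonneg
      (mul_nonneg hη.le (Real.cosh_pos _).le) (div_nonneg (sq_nonneg _) hη.le))
  have hi : Integrable (fun z => ∑ σ, gw (ham f s x b) σ * G σ z) (gam (Fin n)) :=
    integrable_finsetSum _ fun σ _ => (hGi σ).const_mul _
  have hF : Integrable (errF f A T η s x b) (gam (Fin n)) := hi.mono'
    ((measurable_errF hf η).comp (measurable_const.prodMk measurable_id)).aestronglyMeasurable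
    (ae_of_all _ fun z => by rw [Real.norm_eq_abs, abs_of_nonneg (h0 z)]; exact hle z)
  refine ⟨hF, (integral_mono hF hi hle).trans ?_⟩
  rw [integral_finsetSum _ fun σ _ => (hGi σ).const_mul _]
  simp only [integral_const_mul]
  have hb : ∀ σ, ∫ z, G σ z ∂gam (Fin n) ≤ η * Real.exp (2 * n * A ^ 2 / N) +
      (n * A ^ 2 * m₄ / (2 * N ^ 2) + n * A ^ 2 / N ^ 2 *
        ∑ a, (24300 / N * (1 + m₆ + dot (b.1 a) (unitVec σ) ^ 6) +
          (dot (b.1 a) (unitVec σ) - clampT T (dot (b.1 a) (unitVec σ))) ^ 2)) / η := by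
    intro σ
    simp only [hG]
    rw [integral_add ((integral_cosh_le hN hf b.1 σ).1.const_mul η)
      ((integral_remBound hN hf b.1 σ).1.div_const η), integral_const_mul, integral_div]
    exact add_le_add (mul_le_mul_of_nonneg_left (integral_cosh_le hN hf b.1 σ).2 hη.le)
      (div_le_div_of_nonneg_right (integral_remBound hN hf b.1 σ).2 hη.le)
  refine (Vale.Agent.P168.Limit.gav_mono (ham f s x b) hb).trans_eq ?_
  simp only [errB, patObs, div_eq_mul_inv, mul_comm _ η⁻¹]
  simp only [Vale.Agent.P168.Limit.gav_add, Vale.Agent.P168.Limit.gav_const_mul,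
    Vale.Agent.P168.Limit.gav_const, Vale.Agent.P168.Limit.gav_sum, mul_add, Finset.mul_sum]

lemma integrable_errB (hN : 0 < N) (hf : Smooth f A) (hT : 0 ≤ T) (η : ℝ) :
    Integrable (errB f A T η s x : Base N L n → ℝ) (baseLaw N L n) := by
  have h : ∀ a : Fin n, Integrable (fun b : Base N L n =>
      24300 / (N : ℝ) * (1 + m₆ + patObs (fun y => y ^ 6) f s x a b) +
        patObs (fun y => (y - clampT T y) ^ 2) f s x a b) (baseLaw N L n) := fun a =>
    (((integrable_const _).add (integrable_patObs hN hf integrable_pow_six a)).const_mul _).add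
      (integrable_patObs hN hf (integrable_tail hT) a)
  exact (integrable_const _).add (((integrable_const _).add
    ((integrable_finsetSum _ fun a _ => h a).const_mul _)).div_const η)

/-- The error functional over everything. -/
theorem errF_total (hN : 0 < N) (hf : Smooth f A) (hT : 0 ≤ T) {η : ℝ} (hη : 0 < η) :
    Integrable (fun p : Base N L n × (Fin n → ℝ) => errF f A T η s x p.1 p.2)
        ((baseLaw N L n).prod (gam (Fin n))) ∧
      ∫ p : Base N L n × (Fin n → ℝ), errF f A T η s x p.1 p.2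
          ∂(baseLaw N L n).prod (gam (Fin n)) ≤
        η * Real.exp (2 * n * A ^ 2 / N) + Real.exp (2 * A) * A ^ 2 * Real.exp (2 * n / N) *
          ((m₄ + 24300 * (1 + 2 * m₆)) / N + tail T) / η := by
  have hm := (measurable_errF (T := T) (s := s) (x := x) (N := N) (n := n) hf η).aestronglyMeasurable
    (μ := (baseLaw N L n).prod (gam (Fin n)))
  have h0 : ∀ (b : Base N L n) z, 0 ≤ errF f A T η s x b z := fun b z =>
    Finset.sum_nonneg fun σ _ => mul_nonneg (Vale.Agent.P168.Limit.gw_nonneg _ _) (add_nonneg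
      (mul_nonneg hη.le (Real.cosh_pos _).le) (div_nonneg (sq_nonneg _) hη.le))
  have hi : Integrable (fun p : Base N L n × (Fin n → ℝ) => errF f A T η s x p.1 p.2)
      ((baseLaw N L n).prod (gam (Fin n))) := by
    refine (integrable_prod_iff hm).2 ⟨ae_of_all _ fun b => (errF_inner hN hf hη b).1, ?_⟩
    refine (integrable_errB (s := s) (x := x) hN hf hT η).mono' hm.norm.integral_prod_right'
      (ae_of_all _ fun b => ?_)
    simp only [Real.norm_eq_abs, abs_of_nonneg (h0 b _)]
    rw [abs_of_nonneg (integral_nonneg (h0 b))]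
    exact (errF_inner hN hf hη b).2
  refine ⟨hi, ?_⟩
  rw [integral_prod _ hi]
  refine (integral_mono hi.integral_prod_left (integrable_errB (s := s) (x := x) hN hf hT η)
    fun b => (errF_inner hN hf hη b).2).trans ?_
  have h : ∀ a : Fin n, Integrable (fun b : Base N L n =>
      24300 / (N : ℝ) * (1 + m₆ + patObs (fun y => y ^ 6) f s x a b) +
        patObs (fun y => (y - clampT T y) ^ 2) f s x a b) (baseLaw N L n) := fun a =>
    (((integrable_const _).add (integrable_patObs hN hf integrable_pow_six a)).const_mul _).add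
      (integrable_patObs hN hf (integrable_tail hT) a)
  have hA2 : 1 ≤ Real.exp (2 * A) := Real.one_le_exp (by linarith [Smooth.A_nonneg hf])
  have hsum : ∀ a : Fin n, ∫ b : Base N L n,
      (24300 / (N : ℝ) * (1 + m₆ + patObs (fun y => y ^ 6) f s x a b) +
        patObs (fun y => (y - clampT T y) ^ 2) f s x a b) ∂baseLaw N L n ≤
      Real.exp (2 * A) * (24300 * (1 + 2 * m₆) / N + tail T) := by
    intro a
    have i6 := integrable_patObs (s := s) (x := x) hN hf integrable_pow_six a
    have j6 : Integrable (fun b : Base N L n => 1 + m₆ + patObs (fun y => y ^ 6) f s x a b)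
        (baseLaw N L n) := (integrable_const _).add i6
    rw [integral_add (j6.const_mul _) (integrable_patObs hN hf (integrable_tail hT) a),
      integral_const_mul, integral_add (integrable_const _) i6, integral_const, probReal_univ,
      one_smul, mul_add (Real.exp (2 * A))]
    refine add_le_add ?_ (integral_patObs_le hN hf
      ((continuous_id.sub continuous_clampT).pow 2).measurable (integrable_tail hT)
      (fun y => sq_nonneg _) a)
    have h6 := integral_patObs_le (s := s) (x := x) hN hf (φ := fun y => y ^ 6) (by fun_prop)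
      integrable_pow_six (fun y => by positivity) a
    rw [← m₆] at h6
    rw [div_mul_eq_mul_div, mul_div_assoc' (Real.exp (2 * A))]
    refine div_le_div_of_nonneg_right ?_ (Nat.cast_nonneg N)
    nlinarith [mul_le_mul_of_nonneg_right hA2 (add_nonneg zero_le_one m₆_nonneg)]
  unfold errB
  have i3 := (integrable_finsetSum (Finset.univ : Finset (Fin n)) fun a _ => h a).const_mul
    ((n : ℝ) * A ^ 2 / N ^ 2)
  have i4 : Integrable (fun b : Base N L n => n * A ^ 2 * m₄ / (2 * N ^ 2) +
      n * A ^ 2 / N ^ 2 * ∑ a, (24300 / N * (1 + m₆ + patObs (fun y => y ^ 6) f s x a b) +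
        patObs (fun y => (y - clampT T y) ^ 2) f s x a b)) (baseLaw N L n) :=
    (integrable_const _).add i3
  rw [integral_add (integrable_const _) (i4.div_const η),
    integral_const, probReal_univ, one_smul, integral_div,
    integral_add (integrable_const _) i3, integral_const, probReal_univ, one_smul,
    integral_const_mul, integral_finsetSum _ fun a _ => h a]
  refine add_le_add le_rfl (div_le_div_of_nonneg_right ?_ hη.le)
  set u : ℝ := (n : ℝ) / N with hu
  have hu0 : 0 ≤ u := by positivity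
  have hB0 : 0 ≤ tail T := integral_nonneg fun _ => sq_nonneg _
  have hs2 : ∑ a : Fin n, ∫ b : Base N L n,
      (24300 / (N : ℝ) * (1 + m₆ + patObs (fun y => y ^ 6) f s x a b) +
        patObs (fun y => (y - clampT T y) ^ 2) f s x a b) ∂baseLaw N L n ≤
      (n : ℝ) * (Real.exp (2 * A) * (24300 * (1 + 2 * m₆) / N + tail T)) :=
    (Finset.sum_le_card_nsmul _ _ _ fun a _ => hsum a).trans_eq (by simp)
  have hexp : u + u ^ 2 ≤ Real.exp (2 * n / N) := by
    have := Real.quadratic_le_exp_of_nonneg (x := 2 * u) (by positivity)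
    rw [mul_div_assoc, ← hu]
    nlinarith
  have hK0 : 0 ≤ 24300 * (1 + 2 * m₆) / (N : ℝ) + tail T := by
    have := m₆_nonneg; positivity
  calc _ ≤ n * A ^ 2 * m₄ / (2 * N ^ 2) + n * A ^ 2 / N ^ 2 *
        (n * (Real.exp (2 * A) * (24300 * (1 + 2 * m₆) / N + tail T))) :=
      add_le_add le_rfl (mul_le_mul_of_nonneg_left hs2 (by positivity))
    _ = u * (A ^ 2 * (m₄ / N / 2)) +
        u ^ 2 * (Real.exp (2 * A) * A ^ 2 * (24300 * (1 + 2 * m₆) / N + tail T)) := by
      rw [hu]; ring
    _ ≤ u * (Real.exp (2 * A) * A ^ 2 * ((m₄ + 24300 * (1 + 2 * m₆)) / N + tail T)) +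
        u ^ 2 * (Real.exp (2 * A) * A ^ 2 * ((m₄ + 24300 * (1 + 2 * m₆)) / N + tail T)) := by
      have hm4 := m₄_nonneg
      have e : (m₄ + 24300 * (1 + 2 * m₆)) / (N : ℝ) + tail T =
          m₄ / N + (24300 * (1 + 2 * m₆) / N + tail T) := by ring
      have hmN : (0 : ℝ) ≤ m₄ / N := by positivity
      rw [e]
      refine add_le_add (mul_le_mul_of_nonneg_left ?_ hu0) (mul_le_mul_of_nonneg_left ?_ (sq_nonneg u))
      · rw [mul_comm (Real.exp (2 * A)), mul_assoc]
        refine mul_le_mul_of_nonneg_left ?_ (sq_nonneg A)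
        nlinarith [mul_le_mul_of_nonneg_right hA2 (add_nonneg hmN hK0)]
      · exact mul_le_mul_of_nonneg_left (by linarith) (by positivity)
    _ = (u + u ^ 2) * (Real.exp (2 * A) * A ^ 2 *
        ((m₄ + 24300 * (1 + 2 * m₆)) / N + tail T)) := by ring
    _ ≤ Real.exp (2 * n / N) * (Real.exp (2 * A) * A ^ 2 *
        ((m₄ + 24300 * (1 + 2 * m₆)) / N + tail T)) := by
      refine mul_le_mul_of_nonneg_right hexp ?_
      have := m₄_nonneg; have := m₆_nonneg; positivity
    _ = _ := by ring

end Vale.Agent.P157.Parisi.Cavity
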